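import Mathlib.Combinatorics.SimpleGraph.Basic
import Mathlib.Algebra.Order.BigOperators.Ring.Finset
import Mathlib.Data.Finset.Powerset
import Mathlib.Data.Finset.Preimage
import Mathlib.Tactic

/-!
P042, lower bounds: a triangle free relation of degree at most `D` on a finite set `V` has an
independent set `W` with `|V| log_4 D ≤ 8 D |W|` (uniform random independent set).
-/

set_option autoImplicit false

namespace Vale.Agent.P042.LB.H22

open Finset

theorem two_mul_sum_card_powerset {α : Type*} [DecidableEq α] (X : Finset α) :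
    2 * ∑ T ∈ X.powerset, T.card = X.card * 2 ^ X.card := by
  have h1 : ∑ T ∈ X.powerset, T.card = ∑ T ∈ X.powerset, (X \ T).card := by
    refine Finset.sum_nbij' (fun T => X \ T) (fun T => X \ T) ?_ ?_ ?_ ?_ ?_
    · intro T hT
      simp
    · intro T hT
      simp
    · intro T hT
      exact Finset.sdiff_sdiff_eq_self (Finset.mem_powerset.1 hT)
    · intro T hT
      exact Finset.sdiff_sdiff_eq_self (Finset.mem_powerset.1 hT)
    · intro T hT
      rw [Finset.sdiff_sdiff_eq_self (Finset.mem_powerset.1 hT)]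
  have h2 : ∑ T ∈ X.powerset, T.card + ∑ T ∈ X.powerset, (X \ T).card
      = X.card * 2 ^ X.card := by
    rw [← Finset.sum_add_distrib]
    rw [Finset.sum_congr rfl (g := fun _ => X.card)]
    · rw [Finset.sum_const, Finset.card_powerset, smul_eq_mul, mul_comm]
    · intro T hT
      rw [add_comm]
      exact Finset.card_sdiff_add_card_eq_card (Finset.mem_powerset.1 hT)
  omega

theorem num_ineq (D L x : ℕ) (hL : 4 ^ L ≤ D) :
    L * (1 + 2 ^ x) ≤ 4 * D + 2 * (x * 2 ^ x) := by
  rcases le_or_gt x L with h | h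
  · have h1 : 2 ^ x ≤ 2 ^ L := Nat.pow_le_pow_right (by norm_num) h
    have h2 : L ≤ 2 ^ L := Nat.lt_two_pow_self.le
    have h3 : (4 : ℕ) ^ L = 2 ^ L * 2 ^ L := by
      rw [← mul_pow]
      norm_num
    have h4 : 1 ≤ 2 ^ L := Nat.one_le_two_pow
    calc L * (1 + 2 ^ x) ≤ 2 ^ L * (2 ^ L + 2 ^ L) := Nat.mul_le_mul h2 (by omega)
      _ = 2 * 4 ^ L := by rw [h3]; ring
      _ ≤ 4 * D + 2 * (x * 2 ^ x) := by omega
  · have h1 : 1 ≤ 2 ^ x := Nat.one_le_two_pow
    calc L * (1 + 2 ^ x) ≤ x * (2 ^ x + 2 ^ x) := Nat.mul_le_mul h.le (by omega)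
      _ = 2 * (x * 2 ^ x) := by ring
      _ ≤ 4 * D + 2 * (x * 2 ^ x) := by omega

/-- independent subsets of `V` -/
def Ind {α : Type*} [DecidableEq α] (V : Finset α) (r : α → α → Prop) [DecidableRel r] :
    Finset (Finset α) :=
  V.powerset.filter (fun W => ∀ a ∈ W, ∀ b ∈ W, ¬ r a b)

theorem fiber_ineq {α : Type*} [DecidableEq α] (V : Finset α) (r : α → α → Prop) [DecidableRel r]
    (hs : ∀ a b, r a b → r b a) (hirr : ∀ a, ¬ r a a)
    (htri : ∀ a ∈ V, ∀ b ∈ V, ∀ c ∈ V, r a b → r b c → ¬ r a c)
    (D L : ℕ) (hL : 4 ^ L ≤ D) (v : α) (hv : v ∈ V) (S : Finset α)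
    (hS : S ∈ Ind V r) (hSH : S ⊆ V.filter (fun u => u ≠ v ∧ ¬ r v u)) :
    L * ((Ind V r).filter (fun W => W ∩ V.filter (fun u => u ≠ v ∧ ¬ r v u) = S)).card ≤
      4 * ∑ W ∈ (Ind V r).filter (fun W => W ∩ V.filter (fun u => u ≠ v ∧ ¬ r v u) = S),
        ((if v ∈ W then D else 0) + (W.filter (r v)).card) := by
  set H := V.filter (fun u => u ≠ v ∧ ¬ r v u) with hH
  set X := V.filter (fun u => r v u ∧ ∀ s ∈ S, ¬ r u s) with hX
  have hSV : S ⊆ V := Finset.mem_powerset.1 (Finset.mem_filter.1 hS).1
  have hSi : ∀ a ∈ S, ∀ b ∈ S, ¬ r a b := (Finset.mem_filter.1 hS).2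
  have hvS : v ∉ S := fun h => (Finset.mem_filter.1 (hSH h)).2.1 rfl
  have hSr : ∀ s ∈ S, ¬ r v s := fun s h => (Finset.mem_filter.1 (hSH h)).2.2
  have hXS : ∀ u ∈ X, u ∉ S := by
    intro u hu hus
    exact hSr u hus (Finset.mem_filter.1 hu).2.1
  -- the fibre
  have hfib : (Ind V r).filter (fun W => W ∩ H = S) =
      insert (insert v S) (X.powerset.image (fun T => S ∪ T)) := by
    ext W
    simp only [Finset.mem_filter, Finset.mem_insert, Finset.mem_image, Finset.mem_powerset, Ind]
    constructor
    · rintro ⟨⟨hWV, hWi⟩, hWH⟩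
      have hSW : S ⊆ W := by
        rw [← hWH]
        exact Finset.inter_subset_left
      by_cases hvW : v ∈ W
      · left
        ext u
        rw [Finset.mem_insert]
        constructor
        · intro hu
          by_cases huv : u = v
          · left; exact huv
          · right
            rw [← hWH, Finset.mem_inter]
            exact ⟨hu, Finset.mem_filter.2 ⟨hWV hu, huv, hWi v hvW u hu⟩⟩
        · rintro (rfl | hu)
          · exact hvW
          · exact hSW hu
      · right
        refine ⟨W \ S, ?_, ?_⟩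
        · intro u hu
          rw [Finset.mem_sdiff] at hu
          have huV := hWV hu.1
          have huv : u ≠ v := fun h => hvW (h ▸ hu.1)
          refine Finset.mem_filter.2 ⟨huV, ?_, fun s hs' => hWi u hu.1 s (hSW hs')⟩
          by_contra hr
          exact hu.2 (hWH ▸ Finset.mem_inter.2 ⟨hu.1, Finset.mem_filter.2 ⟨huV, huv, hr⟩⟩)
        · exact Finset.union_sdiff_of_subset hSW
    · rintro (rfl | ⟨T, hT, rfl⟩)
      · refine ⟨⟨?_, ?_⟩, ?_⟩
        · exact Finset.insert_subset hv hSV
        · intro a ha b hb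
          rw [Finset.mem_insert] at ha hb
          rcases ha with rfl | ha <;> rcases hb with rfl | hb
          · exact hirr _
          · exact hSr b hb
          · exact fun h => hSr a ha (hs _ _ h)
          · exact hSi a ha b hb
        · ext u
          rw [Finset.mem_inter, Finset.mem_insert]
          constructor
          · rintro ⟨rfl | hu, h2⟩
            · exact absurd rfl (Finset.mem_filter.1 h2).2.1
            · exact hu
          · intro hu
            exact ⟨Or.inr hu, hSH hu⟩
      · have hTX : ∀ u ∈ T, r v u ∧ ∀ s ∈ S, ¬ r u s := fun u hu => (Finset.mem_filter.1 (hT hu)).2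
        have hTV : ∀ u ∈ T, u ∈ V := fun u hu => (Finset.mem_filter.1 (hT hu)).1
        refine ⟨⟨?_, ?_⟩, ?_⟩
        · exact Finset.union_subset hSV (fun u hu => hTV u hu)
        · intro a ha b hb
          rw [Finset.mem_union] at ha hb
          rcases ha with ha | ha <;> rcases hb with hb | hb
          · exact hSi a ha b hb
          · exact fun h => (hTX b hb).2 a ha (hs _ _ h)
          · exact (hTX a ha).2 b hb
          · intro h
            exact htri a (hTV a ha) v hv b (hTV b hb) (hs _ _ (hTX a ha).1) (hTX b hb).1 h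
        · ext u
          rw [Finset.mem_inter, Finset.mem_union]
          constructor
          · rintro ⟨hu | hu, h2⟩
            · exact hu
            · exact absurd (hTX u hu).1 (Finset.mem_filter.1 h2).2.2
          · intro hu
            exact ⟨Or.inl hu, hSH hu⟩
  have hinj : Set.InjOn (fun T => S ∪ T) (X.powerset : Set (Finset α)) := by
    intro T hT T' hT' heq
    simp only at heq
    rw [Finset.mem_coe, Finset.mem_powerset] at hT hT'
    ext u
    constructor
    · intro hu
      have : u ∈ S ∪ T' := heq ▸ Finset.mem_union_right _ hu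
      rcases Finset.mem_union.1 this with h | h
      · exact absurd h (hXS u (hT hu))
      · exact h
    · intro hu
      have : u ∈ S ∪ T := heq ▸ Finset.mem_union_right _ hu
      rcases Finset.mem_union.1 this with h | h
      · exact absurd h (hXS u (hT' hu))
      · exact h
  have hnot : insert v S ∉ X.powerset.image (fun T => S ∪ T) := by
    intro h
    obtain ⟨T, hT, heq⟩ := Finset.mem_image.1 h
    have : v ∈ S ∪ T := by
      rw [heq]
      exact Finset.mem_insert_self _ _
    rcases Finset.mem_union.1 this with h | h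
    · exact hvS h
    · exact hirr v (Finset.mem_filter.1 (Finset.mem_powerset.1 hT h)).2.1
  rw [hfib, Finset.card_insert_of_notMem hnot, Finset.card_image_of_injOn hinj,
    Finset.card_powerset, Finset.sum_insert hnot, Finset.sum_image hinj]
  have hsum : ∑ T ∈ X.powerset, T.card ≤
      ∑ T ∈ X.powerset, ((if v ∈ S ∪ T then D else 0) + ((S ∪ T).filter (r v)).card) := by
    refine Finset.sum_le_sum (fun T hT => ?_)
    refine le_trans ?_ (Nat.le_add_left _ _)
    refine Finset.card_le_card (fun u hu => ?_)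
    exact Finset.mem_filter.2 ⟨Finset.mem_union_right _ hu,
      (Finset.mem_filter.1 (Finset.mem_powerset.1 hT hu)).2.1⟩
  have hfirst : D ≤ (if v ∈ insert v S then D else 0) + ((insert v S).filter (r v)).card := by
    rw [if_pos (Finset.mem_insert_self _ _)]
    exact Nat.le_add_right _ _
  have h2 := two_mul_sum_card_powerset X
  have h3 := num_ineq D L X.card hL
  calc L * (2 ^ X.card + 1) = L * (1 + 2 ^ X.card) := by ring
    _ ≤ 4 * D + 2 * (X.card * 2 ^ X.card) := h3
    _ = 4 * (D + ∑ T ∈ X.powerset, T.card) := by rw [← h2]; ring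
    _ ≤ _ := by
      refine Nat.mul_le_mul_left _ (Nat.add_le_add hfirst hsum)

/-- Shearer / Alon-Spencer: independent sets in triangle free graphs. -/
theorem alon_spencer {α : Type*} [DecidableEq α] (V : Finset α) (r : α → α → Prop)
    [DecidableRel r] (hs : ∀ a b, r a b → r b a) (hirr : ∀ a, ¬ r a a)
    (htri : ∀ a ∈ V, ∀ b ∈ V, ∀ c ∈ V, r a b → r b c → ¬ r a c)
    (D L : ℕ) (hL : 4 ^ L ≤ D) (hD : ∀ v ∈ V, (V.filter (r v)).card ≤ D) :
    ∃ W ⊆ V, (∀ a ∈ W, ∀ b ∈ W, ¬ r a b) ∧ V.card * L ≤ 8 * D * W.card := by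
  have hempty : (∅ : Finset α) ∈ Ind V r := by
    simp [Ind]
  -- one vertex
  have hone : ∀ v ∈ V, L * (Ind V r).card ≤
      4 * ∑ W ∈ Ind V r, ((if v ∈ W then D else 0) + (W.filter (r v)).card) := by
    intro v hv
    set H := V.filter (fun u => u ≠ v ∧ ¬ r v u) with hH
    have hmaps : ∀ W ∈ Ind V r, W ∩ H ∈ (Ind V r).filter (fun S => S ⊆ H) := by
      intro W hW
      rw [Ind, Finset.mem_filter, Finset.mem_powerset] at hW
      rw [Finset.mem_filter, Ind, Finset.mem_filter, Finset.mem_powerset]
      exact ⟨⟨Finset.inter_subset_left.trans hW.1, fun a ha b hb =>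
        hW.2 a (Finset.mem_inter.1 ha).1 b (Finset.mem_inter.1 hb).1⟩, Finset.inter_subset_right⟩
    rw [Finset.card_eq_sum_card_fiberwise hmaps, ← Finset.sum_fiberwise_of_maps_to hmaps,
      Finset.mul_sum, Finset.mul_sum]
    refine Finset.sum_le_sum (fun S hS => ?_)
    rw [Finset.mem_filter] at hS
    exact fiber_ineq V r hs hirr htri D L hL v hv S hS.1 hS.2
  have hall : V.card * L * (Ind V r).card ≤ ∑ W ∈ Ind V r, 8 * D * W.card := by
    calc V.card * L * (Ind V r).card = ∑ v ∈ V, L * (Ind V r).card := by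
          rw [Finset.sum_const, smul_eq_mul, mul_assoc]
      _ ≤ ∑ v ∈ V, 4 * ∑ W ∈ Ind V r, ((if v ∈ W then D else 0) + (W.filter (r v)).card) :=
          Finset.sum_le_sum hone
      _ = ∑ W ∈ Ind V r, 4 * ∑ v ∈ V, ((if v ∈ W then D else 0) + (W.filter (r v)).card) := by
          rw [← Finset.mul_sum, Finset.sum_comm, Finset.mul_sum]
      _ ≤ ∑ W ∈ Ind V r, 8 * D * W.card := by
          refine Finset.sum_le_sum (fun W hW => ?_)
          rw [Ind, Finset.mem_filter, Finset.mem_powerset] at hW
          have h1 : ∑ v ∈ V, (if v ∈ W then D else 0) = D * W.card := by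
            rw [← Finset.sum_filter, Finset.sum_const, smul_eq_mul, mul_comm]
            rw [Finset.filter_mem_eq_inter, Finset.inter_eq_right.2 hW.1]
          have h2 : ∑ v ∈ V, (W.filter (r v)).card ≤ D * W.card := by
            calc ∑ v ∈ V, (W.filter (r v)).card = ∑ w ∈ W, (V.filter (fun v => r v w)).card := by
                  simp only [Finset.card_filter]
                  rw [Finset.sum_comm]
              _ ≤ ∑ w ∈ W, D := by
                  refine Finset.sum_le_sum (fun w hw => ?_)
                  refine le_trans (Finset.card_le_card ?_) (hD w (hW.1 hw))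
                  intro u hu
                  rw [Finset.mem_filter] at hu ⊢
                  exact ⟨hu.1, hs _ _ hu.2⟩
              _ = D * W.card := by rw [Finset.sum_const, smul_eq_mul, mul_comm]
          rw [Finset.sum_add_distrib, h1]
          calc 4 * (D * W.card + ∑ v ∈ V, (W.filter (r v)).card)
              ≤ 4 * (D * W.card + D * W.card) := by omega
            _ = 8 * D * W.card := by ring
  have hex : ∃ W ∈ Ind V r, V.card * L ≤ 8 * D * W.card := by
    refine Finset.exists_le_of_sum_le ⟨∅, hempty⟩ ?_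
    rw [Finset.sum_const, smul_eq_mul, mul_comm]
    exact hall
  obtain ⟨W, hW, hWc⟩ := hex
  rw [Ind, Finset.mem_filter, Finset.mem_powerset] at hW
  exact ⟨W, hW.1, hW.2, hWc⟩

end Vale.Agent.P042.LB.H22
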