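import Vale.Agent.P042.LB.H22.Tri
import Vale.Agent.P042.Defs
import Mathlib.Analysis.Polynomial.Basic
import Mathlib.Analysis.Convex.Deriv

/-!
P042, lower bounds: the tail of an integer polynomial of degree at least two with positive
leading coefficient is a `Seq`.
-/

set_option autoImplicit false

namespace Vale.Agent.P042.LB.H22

open Polynomial Filter

theorem ev_pos (P : ℝ[X]) (h : 0 < P.leadingCoeff) : ∀ᶠ x : ℝ in atTop, 0 < P.eval x := by
  by_cases hd : 0 < P.degree
  · exact (P.tendsto_atTop_of_leadingCoeff_nonneg hd h.le).eventually_gt_atTop 0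
  · have hC := eq_C_of_degree_le_zero (not_lt.1 hd)
    rw [hC] at h ⊢
    rw [leadingCoeff_C] at h
    exact Eventually.of_forall (fun x => by rw [eval_C]; exact h)

theorem der_lc (P : ℝ[X]) (hn : 1 ≤ P.natDegree) (h : 0 < P.leadingCoeff) :
    P.derivative.natDegree = P.natDegree - 1 ∧ 0 < P.derivative.leadingCoeff := by
  have hdeg : P.derivative.natDegree = P.natDegree - 1 := by
    have := degree_derivative (p := P) (by omega)
    exact natDegree_eq_of_degree_eq_some this
  refine ⟨hdeg, ?_⟩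
  rw [leadingCoeff, hdeg, coeff_derivative, Nat.sub_add_cancel hn]
  have : (0 : ℝ) < P.coeff P.natDegree := h
  positivity

theorem exists_seq (h : ℤ[X]) (hk : 2 ≤ h.natDegree) (hpos : 0 < h.leadingCoeff) :
    ∃ n0 : ℕ, 1 ≤ n0 ∧ ∃ a : ℕ → ℕ, Seq a ∧ (∀ j : ℕ, h.eval ((n0 + j : ℕ) : ℤ) = a j) ∧
      ∀ j : ℕ, (n0 + j) ^ h.natDegree ≤ 2 * a j := by
  set k := h.natDegree with hkdef
  set P : ℝ[X] := h.map (Int.castRingHom ℝ) with hP
  have hinj : Function.Injective (Int.castRingHom ℝ) := (Int.castRingHom ℝ).injective_int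
  have hPdeg : P.natDegree = k := natDegree_map_eq_of_injective hinj h
  have hPlc : 0 < P.leadingCoeff := by
    rw [hP, leadingCoeff_map_of_injective hinj]
    simpa using hpos
  have hPe : ∀ n : ℕ, P.eval (n : ℝ) = ((h.eval (n : ℤ) : ℤ) : ℝ) := by
    intro n
    rw [hP, eval_map, ← Int.cast_natCast (R := ℝ) n, ← eq_intCast (Int.castRingHom ℝ) (n : ℤ),
      eval₂_at_apply]
    rfl
  obtain ⟨hd1, hl1⟩ := der_lc P (by omega) hPlc
  obtain ⟨hd2, hl2⟩ := der_lc P.derivative (by omega) hl1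
  -- 2 P - X ^ k
  have hQlc : 0 < (C 2 * P - X ^ k).leadingCoeff := by
    have hco : (C 2 * P - X ^ k).coeff k = 2 * P.leadingCoeff - 1 := by
      rw [coeff_sub, coeff_C_mul, coeff_X_pow, if_pos rfl, ← hPdeg]
      rfl
    have h1 : 1 ≤ P.leadingCoeff := by
      rw [hP, leadingCoeff_map_of_injective hinj]
      have : (1 : ℤ) ≤ h.leadingCoeff := by omega
      simpa using (by exact_mod_cast this : (1 : ℝ) ≤ (h.leadingCoeff : ℝ))
    have hnd : (C 2 * P - X ^ k).natDegree = k := by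
      refine le_antisymm ?_ ?_
      · refine (natDegree_sub_le _ _).trans (max_le ?_ ?_)
        · exact (natDegree_C_mul_le _ _).trans hPdeg.le
        · exact natDegree_X_pow_le k
      · refine le_natDegree_of_ne_zero ?_
        rw [hco]
        linarith
    rw [leadingCoeff, hnd, hco]
    linarith
  obtain ⟨x0, hx0⟩ := eventually_atTop.1 ((ev_pos P hPlc).and ((ev_pos P.derivative hl1).and
    ((ev_pos P.derivative.derivative hl2).and (ev_pos _ hQlc))))
  set n0 : ℕ := ⌈x0⌉₊ + 1 with hn0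
  have hn0x : ∀ x : ℝ, (n0 : ℝ) ≤ x → x0 ≤ x := by
    intro x hx
    have h1 := Nat.le_ceil x0
    rw [hn0] at hx
    push_cast at hx
    linarith
  have hb : ∀ j : ℕ, x0 ≤ ((n0 + j : ℕ) : ℝ) := fun j => hn0x _ (by push_cast; linarith [Nat.cast_nonneg (α := ℝ) j])
  have hpz : ∀ j : ℕ, 0 < h.eval ((n0 + j : ℕ) : ℤ) := by
    intro j
    have := (hx0 _ (hb j)).1
    rw [hPe] at this
    exact_mod_cast this
  refine ⟨n0, by omega, fun j => (h.eval ((n0 + j : ℕ) : ℤ)).toNat, ?_, ?_, ?_⟩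
  rotate_left
  · intro j
    exact (Int.toNat_of_nonneg (hpz j).le).symm
  · intro j
    have := (hx0 _ (hb j)).2.2.2
    rw [eval_sub, eval_mul, eval_C, eval_pow, eval_X, hPe] at this
    have h2 : (((n0 + j : ℕ) : ℤ)) ^ k < 2 * h.eval ((n0 + j : ℕ) : ℤ) := by
      have h3 : (((n0 + j : ℕ) : ℝ)) ^ k < 2 * ((h.eval ((n0 + j : ℕ) : ℤ) : ℤ) : ℝ) := by
        linarith
      exact_mod_cast h3
    have h4 := Int.toNat_of_nonneg (hpz j).le
    have h5 : (((n0 + j) ^ k : ℕ) : ℤ) ≤ ((2 * (h.eval ((n0 + j : ℕ) : ℤ)).toNat : ℕ) : ℤ) := by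
      rw [Nat.cast_mul, h4, Nat.cast_pow]
      exact h2.le
    exact_mod_cast h5
  · -- Seq
    have hcast : ∀ j : ℕ, (((h.eval ((n0 + j : ℕ) : ℤ)).toNat : ℕ) : ℤ)
        = h.eval ((n0 + j : ℕ) : ℤ) := fun j => Int.toNat_of_nonneg (hpz j).le
    have hmonoR : StrictMonoOn (fun x => P.eval x) (Set.Ici (n0 : ℝ)) := by
      refine strictMonoOn_of_deriv_pos (convex_Ici _) P.continuousOn ?_
      intro x hx
      rw [interior_Ici] at hx
      rw [Polynomial.deriv]
      exact (hx0 x (hn0x x (le_of_lt hx))).2.1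
    have hconvR : StrictConvexOn ℝ (Set.Ici (n0 : ℝ)) (fun x => P.eval x) := by
      refine strictConvexOn_of_deriv2_pos (convex_Ici _) P.continuousOn ?_
      intro x hx
      rw [interior_Ici] at hx
      have hd : deriv^[2] (fun x => P.eval x) x = P.derivative.derivative.eval x := by
        have hd1' : (deriv fun x => P.eval x) = fun x => P.derivative.eval x :=
          funext (fun x => Polynomial.deriv P)
        rw [Function.iterate_succ, Function.iterate_one, Function.comp, hd1']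
        exact Polynomial.deriv _
      rw [hd]
      exact (hx0 x (hn0x x (le_of_lt hx))).2.2.1
    have hmem : ∀ j : ℕ, ((n0 + j : ℕ) : ℝ) ∈ Set.Ici (n0 : ℝ) := by
      intro j
      simp
    refine ⟨?_, ?_, ?_, ?_⟩
    · intro j
      have := hpz j
      have h4 := hcast j
      omega
    · refine strictMono_nat_of_lt_succ (fun j => ?_)
      have h1 : P.eval ((n0 + j : ℕ) : ℝ) < P.eval ((n0 + (j + 1) : ℕ) : ℝ) :=
        hmonoR (hmem j) (hmem (j + 1)) (by push_cast; linarith)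
      rw [hPe, hPe] at h1
      have h2 : h.eval ((n0 + j : ℕ) : ℤ) < h.eval ((n0 + (j + 1) : ℕ) : ℤ) := by
        exact_mod_cast h1
      have h4 := hcast j
      have h5 := hcast (j + 1)
      omega
    · intro j
      have h1 := hconvR.2 (hmem j) (hmem (j + 2))
        (by push_cast; linarith) (by norm_num : (0 : ℝ) < 1 / 2) (by norm_num : (0 : ℝ) < 1 / 2)
        (by norm_num)
      have h6 : (1 / 2 : ℝ) • ((n0 + j : ℕ) : ℝ) + (1 / 2 : ℝ) • ((n0 + (j + 2) : ℕ) : ℝ)
          = ((n0 + (j + 1) : ℕ) : ℝ) := by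
        push_cast
        simp only [smul_eq_mul]
        ring
      rw [h6] at h1
      simp only [smul_eq_mul] at h1
      rw [hPe, hPe, hPe] at h1
      have h2 : 2 * h.eval ((n0 + (j + 1) : ℕ) : ℤ) < h.eval ((n0 + j : ℕ) : ℤ)
          + h.eval ((n0 + (j + 2) : ℕ) : ℤ) := by
        have h3 : 2 * ((h.eval ((n0 + (j + 1) : ℕ) : ℤ) : ℤ) : ℝ)
          < ((h.eval ((n0 + j : ℕ) : ℤ) : ℤ) : ℝ) + ((h.eval ((n0 + (j + 2) : ℕ) : ℤ) : ℤ) : ℝ) := by
          linarith
        exact_mod_cast h3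
      have h4 := hcast j
      have h5 := hcast (j + 1)
      have h7 := hcast (j + 2)
      omega
    · intro j e
      have h1 : (((n0 + (j + e) : ℕ) : ℤ) - ((n0 + j : ℕ) : ℤ)) ∣
          h.eval ((n0 + (j + e) : ℕ) : ℤ) - h.eval ((n0 + j : ℕ) : ℤ) :=
        sub_dvd_eval_sub _ _ h
      have h2 : ((n0 + (j + e) : ℕ) : ℤ) - ((n0 + j : ℕ) : ℤ) = (e : ℤ) := by
        push_cast
        ring
      rw [h2, ← hcast (j + e), ← hcast j] at h1
      rcases le_total ((h.eval ((n0 + j : ℕ) : ℤ)).toNat) ((h.eval ((n0 + (j + e) : ℕ) : ℤ)).toNat)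
        with h3 | h3
      · rw [← Nat.cast_sub h3] at h1
        exact_mod_cast h1
      · rw [Nat.sub_eq_zero_of_le h3]
        exact dvd_zero _

end Vale.Agent.P042.LB.H22
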