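import Vale.Agent.P042.LB.H22.Num
import Vale.Agent.P042.LB.H22.Poly
import Vale.Agent.P042.LB.H522.Basic

/-!
P042, lower bounds: `r_h(N) ≥ c N ^ (1 - 1 / k) log N` for every `h` of degree `k ≥ 2`.
-/

set_option autoImplicit false

namespace Vale.Agent.P042.LB.H22

open Polynomial

theorem card_le_rMax (h : ℤ[X]) (N : ℕ) (A : Finset ℤ) (hA : A ⊆ Finset.Icc (1 : ℤ) N)
    (hD : DiffFree h A) : A.card ≤ rMax h N := by
  classical
  unfold rMax
  exact Finset.le_sup (f := Finset.card) (Finset.mem_filter.2 ⟨Finset.mem_powerset.2 hA, hD⟩)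

theorem one_le_rMax (h : ℤ[X]) (N : ℕ) (hN : 1 ≤ N) : 1 ≤ rMax h N := by
  have := card_le_rMax h N {1} (by
    intro x hx
    rw [Finset.mem_singleton] at hx
    subst hx
    rw [Finset.mem_Icc]
    exact ⟨le_rfl, by exact_mod_cast hN⟩) (by
    rintro x ⟨hx, _⟩
    rw [Finset.coe_singleton, Set.singleton_sub_singleton, sub_self] at hx
    exact hx)
  simpa using this

/-- from an independent set in the Cayley graph of the tail to a difference free set -/
theorem indep_le {h : ℤ[X]} {n0 : ℕ} {a : ℕ → ℕ}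
    (hv : ∀ j : ℕ, h.eval ((n0 + j : ℕ) : ℤ) = a j) (N : ℕ) (W : Finset (Fin N))
    (hW : ∀ x ∈ W, ∀ y ∈ W, ¬ adj a x y) : W.card ≤ (2 * n0 + 1) * rMax h N := by
  classical
  set A : Finset ℤ := W.image (fun x : Fin N => ((x : ℕ) : ℤ) + 1) with hA
  set E : Finset ℤ := ((Finset.range n0).image (fun n : ℕ => h.eval (n : ℤ))).erase 0 with hE
  have hAc : A.card = W.card := by
    refine Finset.card_image_of_injective _ (fun x y hxy => ?_)
    have h1 : ((x : ℕ) : ℤ) = ((y : ℕ) : ℤ) := by linarith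
    exact Fin.ext (by exact_mod_cast h1)
  have hEc : E.card ≤ n0 := by
    calc E.card ≤ ((Finset.range n0).image (fun n : ℕ => h.eval (n : ℤ))).card :=
          Finset.card_le_card (Finset.erase_subset _ _)
      _ ≤ (Finset.range n0).card := Finset.card_image_le
      _ = n0 := Finset.card_range _
  obtain ⟨B, hBA, hBc, hB⟩ := greedy_sub A E (Finset.notMem_erase _ _)
  have hBN : B ⊆ Finset.Icc (1 : ℤ) N := by
    intro z hz
    obtain ⟨x, _, rfl⟩ := Finset.mem_image.1 (hBA hz)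
    rw [Finset.mem_Icc]
    have h2 := x.2
    omega
  have hBD : DiffFree h B := by
    rintro z ⟨⟨x, hx, y, hy, rfl⟩, n, _, hn⟩
    have hx' : x ∈ B := hx
    have hy' : y ∈ B := hy
    change h.eval (n : ℤ) = x - y at hn
    by_contra hz
    rw [Set.mem_singleton_iff] at hz
    rcases lt_or_ge n n0 with h1 | h1
    · refine hB y hy' x hx' ?_
      rw [hE, Finset.mem_erase]
      refine ⟨hz, ?_⟩
      rw [← hn]
      exact Finset.mem_image_of_mem _ (Finset.mem_range.2 h1)
    · obtain ⟨j, rfl⟩ := Nat.exists_eq_add_of_le h1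
      rw [hv] at hn
      obtain ⟨u, hu, rfl⟩ := Finset.mem_image.1 (hBA hx')
      obtain ⟨v, hv', rfl⟩ := Finset.mem_image.1 (hBA hy')
      refine hW u hu v hv' ⟨j, Or.inr ?_⟩
      omega
  calc W.card = A.card := hAc.symm
    _ ≤ (2 * E.card + 1) * B.card := hBc
    _ ≤ (2 * n0 + 1) * rMax h N :=
        Nat.mul_le_mul (by omega) (card_le_rMax h N B hBN hBD)

/-- **Lower bound for all polynomials.** -/
theorem lb_all (h : ℤ[X]) (hk : 2 ≤ h.natDegree) (hpos : 0 < h.leadingCoeff) :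
    ∃ c : ℝ, 0 < c ∧ ∀ N : ℕ, 1 ≤ N →
      c * ((N : ℝ) ^ (1 - 1 / (h.natDegree : ℝ)) * Real.log N) ≤ (rMax h N : ℝ) := by
  obtain ⟨n0, hn0, a, ha, hv, hgr⟩ := exists_seq h hk hpos
  set k := h.natDegree with hkd
  obtain ⟨K, hK1, hK⟩ := seq_indep ha k n0 (by omega) hn0 hgr
  have hkR : (2 : ℝ) ≤ k := by exact_mod_cast hk
  have hk0 : (0 : ℝ) < k := by linarith
  have hl4 : 0 < Real.log 4 := Real.log_pos (by norm_num)
  set P : ℕ := 4 ^ (8 * k) with hPd
  have hP1 : (1 : ℝ) < P := by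
    have : 1 < P := Nat.one_lt_pow (by omega) (by norm_num)
    exact_mod_cast this
  have hlP : 0 < Real.log P := Real.log_pos hP1
  have hKR : (0 : ℝ) < K := by exact_mod_cast hK1
  have hnR : (0 : ℝ) < 2 * n0 + 1 := by positivity
  refine ⟨min (1 / (P * Real.log P)) (1 / (16 * k * Real.log 4 * (K * (2 * n0 + 1)))),
    lt_min (by positivity) (by positivity), fun N hN => ?_⟩
  have hN1 : (1 : ℝ) ≤ N := by exact_mod_cast hN
  have hN0 : (0 : ℝ) < N := by linarith
  have hlN : 0 ≤ Real.log N := Real.log_nonneg hN1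
  rcases lt_or_ge N P with hNP | hNP
  · -- small N
    have h1 : (1 : ℝ) ≤ rMax h N := by exact_mod_cast one_le_rMax h N hN
    have h2 : (N : ℝ) ^ (1 - 1 / (k : ℝ)) ≤ P := by
      calc (N : ℝ) ^ (1 - 1 / (k : ℝ)) ≤ (N : ℝ) ^ (1 : ℝ) := by
            refine Real.rpow_le_rpow_of_exponent_le hN1 ?_
            have : 0 < 1 / (k : ℝ) := by positivity
            linarith
        _ = N := Real.rpow_one _
        _ ≤ P := by exact_mod_cast hNP.le
    have h3 : Real.log N ≤ Real.log P :=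
      Real.log_le_log hN0 (by exact_mod_cast hNP.le)
    calc _ ≤ 1 / (P * Real.log P) * ((N : ℝ) ^ (1 - 1 / (k : ℝ)) * Real.log N) :=
          mul_le_mul_of_nonneg_right (min_le_left _ _)
            (mul_nonneg (Real.rpow_nonneg hN0.le _) hlN)
      _ ≤ 1 / (P * Real.log P) * (P * Real.log P) := by
          refine mul_le_mul_of_nonneg_left ?_ (by positivity)
          exact mul_le_mul h2 h3 hlN (by positivity)
      _ = 1 := by field_simp
      _ ≤ _ := h1
  · -- large N
    set t : ℝ := (N : ℝ) ^ (1 / (8 * (k : ℝ))) with ht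
    have h8k : (0 : ℝ) < 8 * k := by positivity
    have ht0 : 0 < t := Real.rpow_pos_of_pos hN0 _
    have htp : t ^ (8 * k) = N := by
      rw [ht, ← Real.rpow_natCast, ← Real.rpow_mul hN0.le]
      push_cast
      rw [one_div, inv_mul_cancel₀ h8k.ne', Real.rpow_one]
    have ht4 : 4 ≤ t := by
      by_contra hcon
      rw [not_le] at hcon
      have h1 : t ^ (8 * k) < 4 ^ (8 * k) := pow_lt_pow_left₀ hcon ht0.le (by omega)
      rw [htp] at h1
      have h2 : (P : ℝ) ≤ N := by exact_mod_cast hNP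
      rw [hPd] at h2
      push_cast at h2
      linarith
    set T : ℕ := ⌊t⌋₊ with hT
    have hT4 : 4 ≤ T := Nat.le_floor (by exact_mod_cast ht4)
    have hTle : (T : ℝ) ≤ t := Nat.floor_le ht0.le
    have htT : t < (T : ℝ) + 1 := Nat.lt_floor_add_one t
    have hNT : N ≤ (T + 1) ^ (8 * k) := by
      have h1 : (N : ℝ) ≤ ((T : ℝ) + 1) ^ (8 * k) := by
        rw [← htp]
        exact pow_le_pow_left₀ ht0.le htT.le _
      exact_mod_cast h1
    obtain ⟨W, hW, hWc⟩ := hK T N (by omega) hN hNT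
    have hWr := indep_le hv N W hW
    set L := Nat.log 4 T with hL
    have hL1 : 1 ≤ L := by
      rw [hL]
      exact Nat.log_pos (by norm_num) hT4
    -- log N ≤ 16 k L log 4
    have hlog : Real.log N ≤ 16 * k * Real.log 4 * L := by
      have h1 : T + 1 ≤ 4 ^ (L + 1) := Nat.lt_pow_succ_log_self (by norm_num) T
      have h2 : t ≤ 4 ^ (L + 1) := by
        refine htT.le.trans ?_
        exact_mod_cast h1
      have h3 : Real.log t ≤ (L + 1) * Real.log 4 := by
        have h4 := Real.log_le_log ht0 h2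
        rw [Real.log_pow] at h4
        push_cast at h4
        exact h4
      have h5 : Real.log N = 8 * k * Real.log t := by
        rw [← htp, Real.log_pow]
        push_cast
        ring
      have h6 : ((L : ℝ) + 1) ≤ 2 * L := by
        have : (1 : ℝ) ≤ L := by exact_mod_cast hL1
        linarith
      rw [h5]
      calc 8 * k * Real.log t ≤ 8 * k * ((L + 1) * Real.log 4) :=
            mul_le_mul_of_nonneg_left h3 (by positivity)
        _ ≤ 8 * k * ((2 * L) * Real.log 4) :=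
            mul_le_mul_of_nonneg_left (mul_le_mul_of_nonneg_right h6 hl4.le) (by positivity)
        _ = 16 * k * Real.log 4 * L := by ring
    -- T ^ 8 ≤ N ^ (1 / k)
    have hT8 : (T : ℝ) ^ 8 ≤ (N : ℝ) ^ (1 / (k : ℝ)) := by
      calc (T : ℝ) ^ 8 ≤ t ^ 8 := pow_le_pow_left₀ (Nat.cast_nonneg _) hTle 8
        _ = (N : ℝ) ^ (1 / (k : ℝ)) := by
            rw [ht, ← Real.rpow_natCast, ← Real.rpow_mul hN0.le]
            congr 1
            push_cast
            field_simp
    have hmain : (N : ℝ) * L ≤ K * (N : ℝ) ^ (1 / (k : ℝ)) * ((2 * n0 + 1) * rMax h N) := by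
      have h1 : ((N * L : ℕ) : ℝ) ≤ ((K * T ^ 8 * W.card : ℕ) : ℝ) := by exact_mod_cast hWc
      have h2 : ((W.card : ℕ) : ℝ) ≤ (((2 * n0 + 1) * rMax h N : ℕ) : ℝ) := by
        exact_mod_cast hWr
      push_cast at h1 h2
      calc (N : ℝ) * L ≤ K * (T : ℝ) ^ 8 * W.card := h1
        _ ≤ K * (N : ℝ) ^ (1 / (k : ℝ)) * ((2 * n0 + 1) * rMax h N) := by
            refine mul_le_mul (mul_le_mul_of_nonneg_left hT8 hKR.le) h2 (Nat.cast_nonneg _) ?_
            positivity
    have hNk : 0 < (N : ℝ) ^ (1 / (k : ℝ)) := Real.rpow_pos_of_pos hN0 _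
    have hsplit : (N : ℝ) ^ (1 - 1 / (k : ℝ)) = N / (N : ℝ) ^ (1 / (k : ℝ)) := by
      rw [Real.rpow_sub hN0, Real.rpow_one]
    calc _ ≤ 1 / (16 * k * Real.log 4 * (K * (2 * n0 + 1))) *
            ((N : ℝ) ^ (1 - 1 / (k : ℝ)) * Real.log N) :=
          mul_le_mul_of_nonneg_right (min_le_right _ _)
            (mul_nonneg (Real.rpow_nonneg hN0.le _) hlN)
      _ ≤ 1 / (16 * k * Real.log 4 * (K * (2 * n0 + 1))) *
            ((N : ℝ) ^ (1 - 1 / (k : ℝ)) * (16 * k * Real.log 4 * L)) := by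
          refine mul_le_mul_of_nonneg_left ?_ (by positivity)
          exact mul_le_mul_of_nonneg_left hlog (Real.rpow_nonneg hN0.le _)
      _ = (N * L) / (K * (N : ℝ) ^ (1 / (k : ℝ)) * (2 * n0 + 1)) := by
          rw [hsplit]
          field_simp
      _ ≤ rMax h N := by
          rw [div_le_iff₀ (by positivity)]
          calc (N : ℝ) * L ≤ K * (N : ℝ) ^ (1 / (k : ℝ)) * ((2 * n0 + 1) * rMax h N) := hmain
            _ = _ := by ring

end Vale.Agent.P042.LB.H22
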