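import Vale.Agent.P042.LB.H22.AS
import Mathlib.Data.ZMod.Basic

/-!
P042, lower bounds: graphs with few triangles.  A random colouring with `M` colours has a colour
class with few edges and very few triangles; delete the triangles and the vertices of large
degree and apply `alon_spencer`.
-/

set_option autoImplicit false

namespace Vale.Agent.P042.LB.H22

open Finset

variable {α : Type*} [Fintype α] [DecidableEq α]

/-- two different points get the same colour with probability `1 / M` -/
theorem mono_two (M : ℕ) [NeZero M] (a b : α) (hab : a ≠ b) :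
    M * ((univ : Finset (α → ZMod M)).filter (fun f => f a = f b)).card
      = Fintype.card (α → ZMod M) := by
  have hcls : ∀ s : ZMod M, ((univ : Finset (α → ZMod M)).filter (fun f => f b - f a = s)).card
      = ((univ : Finset (α → ZMod M)).filter (fun f => f a = f b)).card := by
    intro s
    refine Finset.card_bij' (fun f _ => Function.update f b (f b - s))
      (fun f _ => Function.update f b (f b + s)) ?_ ?_ ?_ ?_
    · intro f hf
      rw [Finset.mem_filter] at hf ⊢
      refine ⟨Finset.mem_univ _, ?_⟩
      rw [Function.update_of_ne hab, Function.update_self, ← hf.2]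
      ring
    · intro f hf
      rw [Finset.mem_filter] at hf ⊢
      refine ⟨Finset.mem_univ _, ?_⟩
      rw [Function.update_of_ne hab, Function.update_self, hf.2]
      ring
    · intro f hf
      simp
    · intro f hf
      simp
  have h1 : Fintype.card (α → ZMod M) = ∑ s : ZMod M,
      ((univ : Finset (α → ZMod M)).filter (fun f => f b - f a = s)).card := by
    rw [← Finset.card_univ]
    exact Finset.card_eq_sum_card_fiberwise (fun f _ => Finset.mem_univ _)
  rw [h1, Finset.sum_congr rfl (fun s _ => hcls s), Finset.sum_const, Finset.card_univ,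
    ZMod.card, smul_eq_mul]

/-- three different points get the same colour with probability `1 / M ^ 2` -/
theorem mono_three (M : ℕ) [NeZero M] (a b c : α) (hab : a ≠ b) (hac : a ≠ c) (hbc : b ≠ c) :
    M * (M * ((univ : Finset (α → ZMod M)).filter (fun f => f a = f b ∧ f b = f c)).card)
      = Fintype.card (α → ZMod M) := by
  have hcls : ∀ s : ZMod M,
      ((univ : Finset (α → ZMod M)).filter (fun f => f a = f b ∧ f c - f b = s)).card
      = ((univ : Finset (α → ZMod M)).filter (fun f => f a = f b ∧ f b = f c)).card := by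
    intro s
    refine Finset.card_bij' (fun f _ => Function.update f c (f c - s))
      (fun f _ => Function.update f c (f c + s)) ?_ ?_ ?_ ?_
    · intro f hf
      rw [Finset.mem_filter] at hf ⊢
      refine ⟨Finset.mem_univ _, ?_⟩
      rw [Function.update_of_ne hac, Function.update_of_ne hbc, Function.update_self]
      refine ⟨hf.2.1, ?_⟩
      rw [← hf.2.2]
      ring
    · intro f hf
      rw [Finset.mem_filter] at hf ⊢
      refine ⟨Finset.mem_univ _, ?_⟩
      rw [Function.update_of_ne hac, Function.update_of_ne hbc, Function.update_self]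
      refine ⟨hf.2.1, ?_⟩
      rw [hf.2.2]
      ring
    · intro f hf
      simp
    · intro f hf
      simp
  have h1 : ((univ : Finset (α → ZMod M)).filter (fun f => f a = f b)).card = ∑ s : ZMod M,
      ((univ : Finset (α → ZMod M)).filter (fun f => f a = f b ∧ f c - f b = s)).card := by
    rw [Finset.card_eq_sum_card_fiberwise (t := (univ : Finset (ZMod M)))
      (f := fun f : α → ZMod M => f c - f b) (fun f _ => Finset.mem_univ _)]
    refine Finset.sum_congr rfl (fun s _ => ?_)
    rw [Finset.filter_filter]
  rw [← mono_two M a b hab, h1, Finset.sum_congr rfl (fun s _ => hcls s), Finset.sum_const,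
    Finset.card_univ, ZMod.card, smul_eq_mul]

/-- ordered edges inside `U` -/
def eds (r : α → α → Prop) [DecidableRel r] (U : Finset α) : Finset (α × α) :=
  (U ×ˢ U).filter (fun p => r p.1 p.2)

/-- ordered triangles inside `U` -/
def tris (r : α → α → Prop) [DecidableRel r] (U : Finset α) : Finset (α × α × α) :=
  (U ×ˢ (U ×ˢ U)).filter (fun p => r p.1 p.2.1 ∧ r p.2.1 p.2.2 ∧ r p.1 p.2.2)

theorem col_class (r : α → α → Prop) [DecidableRel r] (hirr : ∀ a, ¬ r a a)
    (M : ℕ) [NeZero M] (d : ℕ)
    (hE : (eds r (univ : Finset α)).card ≤ Fintype.card α * d)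
    (hT : 8 * (tris r (univ : Finset α)).card ≤ Fintype.card α * M ^ 2) :
    ∃ U : Finset α, d * Fintype.card α + M * (M * (eds r U).card + 16 * d * (tris r U).card)
      ≤ M * (4 * d * U.card) := by
  classical
  set n := Fintype.card α with hn
  set F := Fintype.card (α → ZMod M) with hF
  have hM : 0 < M := Nat.pos_of_ne_zero (NeZero.ne M)
  set U : (α → ZMod M) → ZMod M → Finset α := fun f c => univ.filter (fun a => f a = c) with hU
  -- sums over the colour classes
  have s1 : ∀ f : α → ZMod M, ∑ c : ZMod M, (U f c).card = n := by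
    intro f
    rw [hn, ← Finset.card_univ]
    exact (Finset.card_eq_sum_card_fiberwise (fun a _ => Finset.mem_univ (f a))).symm
  have s2 : ∀ f : α → ZMod M, ∑ c : ZMod M, (eds r (U f c)).card =
      ((eds r (univ : Finset α)).filter (fun p => f p.1 = f p.2)).card := by
    intro f
    rw [Finset.card_eq_sum_card_fiberwise (t := (univ : Finset (ZMod M)))
      (f := fun p : α × α => f p.1) (fun f _ => Finset.mem_univ _)]
    refine Finset.sum_congr rfl (fun c _ => congrArg Finset.card ?_)
    ext p
    simp only [eds, hU, Finset.mem_filter, Finset.mem_product, Finset.mem_univ, true_and]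
    constructor
    · rintro ⟨⟨h1, h2⟩, h3⟩
      exact ⟨⟨h3, by rw [h1, h2]⟩, h1⟩
    · rintro ⟨⟨h3, h4⟩, h1⟩
      exact ⟨⟨h1, by rw [← h4, h1]⟩, h3⟩
  have s3 : ∀ f : α → ZMod M, ∑ c : ZMod M, (tris r (U f c)).card =
      ((tris r (univ : Finset α)).filter (fun p => f p.1 = f p.2.1 ∧ f p.2.1 = f p.2.2)).card := by
    intro f
    rw [Finset.card_eq_sum_card_fiberwise (t := (univ : Finset (ZMod M)))
      (f := fun p : α × α × α => f p.1) (fun f _ => Finset.mem_univ _)]
    refine Finset.sum_congr rfl (fun c _ => congrArg Finset.card ?_)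
    ext p
    simp only [tris, hU, Finset.mem_filter, Finset.mem_product, Finset.mem_univ, true_and]
    constructor
    · rintro ⟨⟨h1, h2, h3⟩, h4⟩
      exact ⟨⟨h4, by rw [h1, h2], by rw [h2, h3]⟩, h1⟩
    · rintro ⟨⟨h4, h5, h6⟩, h1⟩
      exact ⟨⟨h1, by rw [← h5, h1], by rw [← h6, ← h5, h1]⟩, h4⟩
  have e2 : M * ∑ f : α → ZMod M, ((eds r (univ : Finset α)).filter
      (fun p => f p.1 = f p.2)).card = F * (eds r (univ : Finset α)).card := by
    simp only [Finset.card_filter]
    rw [Finset.sum_comm, Finset.mul_sum]
    rw [Finset.sum_congr rfl (g := fun _ => F)]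
    · rw [Finset.sum_const, smul_eq_mul, mul_comm]
    · intro p hp
      rw [← Finset.card_filter]
      refine mono_two M p.1 p.2 ?_
      intro h
      have := (Finset.mem_filter.1 hp).2
      rw [h] at this
      exact hirr _ this
  have e3 : M ^ 2 * ∑ f : α → ZMod M, ((tris r (univ : Finset α)).filter
      (fun p => f p.1 = f p.2.1 ∧ f p.2.1 = f p.2.2)).card
      = F * (tris r (univ : Finset α)).card := by
    simp only [Finset.card_filter]
    rw [Finset.sum_comm, Finset.mul_sum]
    rw [Finset.sum_congr rfl (g := fun _ => F)]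
    · rw [Finset.sum_const, smul_eq_mul, mul_comm]
    · intro p hp
      rw [← Finset.card_filter, pow_two, mul_assoc]
      have h3 := (Finset.mem_filter.1 hp).2
      refine mono_three M p.1 p.2.1 p.2.2 ?_ ?_ ?_
      · intro h
        have := h3.1
        rw [h] at this
        exact hirr _ this
      · intro h
        have := h3.2.2
        rw [h] at this
        exact hirr _ this
      · intro h
        have := h3.2.1
        rw [h] at this
        exact hirr _ this
  have key : ∃ q ∈ (univ : Finset ((α → ZMod M) × ZMod M)),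
      d * n + M * (M * (eds r (U q.1 q.2)).card + 16 * d * (tris r (U q.1 q.2)).card)
      ≤ M * (4 * d * (U q.1 q.2).card) := by
    refine Finset.exists_le_of_sum_le ⟨(fun _ => 0, 0), Finset.mem_univ _⟩ ?_
    rw [← Finset.univ_product_univ, Finset.sum_product, Finset.sum_product]
    have L1 : ∑ f : α → ZMod M, ∑ c : ZMod M,
        (d * n + M * (M * (eds r (U f c)).card + 16 * d * (tris r (U f c)).card))
        = F * (M * (d * n)) + (M * (M * ∑ f : α → ZMod M, ∑ c : ZMod M, (eds r (U f c)).card)
          + M * (16 * d * ∑ f : α → ZMod M, ∑ c : ZMod M, (tris r (U f c)).card)) := by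
      simp only [Finset.sum_add_distrib, mul_add, Finset.mul_sum, Finset.sum_const,
        Finset.card_univ, ZMod.card, smul_eq_mul]
      rw [← hF]
    have L2 : ∑ f : α → ZMod M, ∑ c : ZMod M, M * (4 * d * (U f c).card)
        = F * (M * (4 * d * n)) := by
      simp only [← Finset.mul_sum, s1, Finset.sum_const, Finset.card_univ, smul_eq_mul]
      rw [← hF]
      ring
    rw [L1, L2]
    simp only [s2, s3]
    rw [e2]
    have hT2 : M * (16 * d * ∑ f : α → ZMod M, ((tris r (univ : Finset α)).filter
      (fun p => f p.1 = f p.2.1 ∧ f p.2.1 = f p.2.2)).card) ≤ F * (M * (2 * d * n)) := by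
      refine Nat.le_of_mul_le_mul_left (c := M) ?_ hM
      calc M * (M * (16 * d * ∑ f : α → ZMod M, ((tris r (univ : Finset α)).filter
            (fun p => f p.1 = f p.2.1 ∧ f p.2.1 = f p.2.2)).card))
          = 16 * d * (M ^ 2 * ∑ f : α → ZMod M, ((tris r (univ : Finset α)).filter
            (fun p => f p.1 = f p.2.1 ∧ f p.2.1 = f p.2.2)).card) := by ring
        _ = 2 * d * F * (8 * (tris r (univ : Finset α)).card) := by rw [e3]; ring
        _ ≤ 2 * d * F * (n * M ^ 2) := Nat.mul_le_mul_left _ hT
        _ = M * (F * (M * (2 * d * n))) := by ring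
    have hE2 : M * (F * (eds r (univ : Finset α)).card) ≤ F * (M * (d * n)) := by
      calc M * (F * (eds r (univ : Finset α)).card) ≤ M * (F * (n * d)) :=
            Nat.mul_le_mul_left _ (Nat.mul_le_mul_left _ hE)
        _ = F * (M * (d * n)) := by ring
    calc F * (M * (d * n)) + (M * (F * (eds r (univ : Finset α)).card) + _)
        ≤ F * (M * (d * n)) + (F * (M * (d * n)) + F * (M * (2 * d * n))) :=
          Nat.add_le_add_left (Nat.add_le_add hE2 hT2) _
      _ = F * (M * (4 * d * n)) := by ring
  obtain ⟨q, _, hq⟩ := key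
  exact ⟨U q.1 q.2, hq⟩

/-- Independent sets in graphs with few triangles. -/
theorem few_triangles (r : α → α → Prop) [DecidableRel r] (hs : ∀ a b, r a b → r b a)
    (hirr : ∀ a, ¬ r a a) (M : ℕ) (hM : 1 ≤ M) (d L : ℕ) (hMd : M ≤ d)
    (hdeg : ∀ a : α, (univ.filter (r a)).card ≤ d)
    (hT : 8 * (tris r (univ : Finset α)).card ≤ Fintype.card α * M ^ 2)
    (hL : 4 ^ L * M ≤ 16 * d) :
    ∃ W : Finset α, (∀ a ∈ W, ∀ b ∈ W, ¬ r a b) ∧ Fintype.card α * L ≤ 1088 * d * W.card := by
  classical
  have : NeZero M := ⟨by omega⟩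
  have hd : 0 < d := by omega
  have hE : (eds r (univ : Finset α)).card ≤ Fintype.card α * d := by
    rw [eds, Finset.card_filter, Finset.sum_product]
    calc ∑ a : α, ∑ b : α, (if r a b then 1 else 0) = ∑ a : α, (univ.filter (r a)).card := by
          refine Finset.sum_congr rfl (fun a _ => ?_)
          rw [Finset.card_filter]
      _ ≤ ∑ a : α, d := Finset.sum_le_sum (fun a _ => hdeg a)
      _ = Fintype.card α * d := by rw [Finset.sum_const, Finset.card_univ, smul_eq_mul]
  obtain ⟨U, hU⟩ := col_class r hirr M d hE hT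
  set n := Fintype.card α with hn
  set D := 16 * d / M + 1 with hD
  have hDM : D * M ≤ 17 * d := by
    have := Nat.div_mul_le_self (16 * d) M
    rw [hD, add_mul, one_mul]
    omega
  have hDM2 : 16 * d < D * M := by
    rw [hD, mul_comm (16 * d / M + 1) M]
    exact Nat.lt_mul_div_succ (16 * d) (by omega)
  have hLD : 4 ^ L ≤ D := by
    have : 4 ^ L ≤ 16 * d / M := (Nat.le_div_iff_mul_le (by omega)).2 hL
    omega
  -- consequences for U
  have hU1 : n ≤ 4 * M * U.card := by
    refine Nat.le_of_mul_le_mul_left (c := d) ?_ hd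
    calc d * n ≤ M * (4 * d * U.card) := le_trans (Nat.le_add_right _ _) hU
      _ = d * (4 * M * U.card) := by ring
  have hU2 : M * (eds r U).card ≤ 4 * d * U.card := by
    refine Nat.le_of_mul_le_mul_left (c := M) ?_ (by omega)
    refine le_trans ?_ hU
    rw [mul_add]
    omega
  have hU3 : 4 * (tris r U).card ≤ U.card := by
    refine Nat.le_of_mul_le_mul_left (c := M * (4 * d)) ?_ (by positivity)
    calc M * (4 * d) * (4 * (tris r U).card) = M * (16 * d * (tris r U).card) := by ring
      _ ≤ M * (4 * d * U.card) := by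
        refine le_trans ?_ hU
        rw [mul_add]
        omega
      _ = M * (4 * d) * U.card := by ring
  -- bad vertices
  set B1 := U.filter (fun a => ∃ b ∈ U, ∃ c ∈ U, r a b ∧ r b c ∧ r a c) with hB1
  set B2 := U.filter (fun a => D < (U.filter (r a)).card) with hB2
  have hB1c : B1.card ≤ (tris r U).card := by
    have hsub : B1 ⊆ (tris r U).image Prod.fst := by
      intro a ha
      rw [hB1, Finset.mem_filter] at ha
      obtain ⟨haU, b, hb, c, hc, h1, h2, h3⟩ := ha
      refine Finset.mem_image.2 ⟨(a, b, c), ?_, rfl⟩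
      simp only [tris, Finset.mem_filter, Finset.mem_product]
      exact ⟨⟨haU, hb, hc⟩, h1, h2, h3⟩
    exact (Finset.card_le_card hsub).trans Finset.card_image_le
  have hB2c : D * B2.card ≤ (eds r U).card := by
    have hedc : (eds r U).card = ∑ a ∈ U, ∑ b ∈ U, (if r a b then 1 else 0) := by
      rw [eds, Finset.card_filter, Finset.sum_product]
    rw [hedc]
    calc D * B2.card = ∑ a ∈ B2, D := by rw [Finset.sum_const, smul_eq_mul, mul_comm]
      _ ≤ ∑ a ∈ B2, (U.filter (r a)).card := by
          refine Finset.sum_le_sum (fun a ha => ?_)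
          exact (Finset.mem_filter.1 ha).2.le
      _ ≤ ∑ a ∈ U, (U.filter (r a)).card :=
          Finset.sum_le_sum_of_subset (Finset.filter_subset _ _)
      _ = ∑ a ∈ U, ∑ b ∈ U, (if r a b then 1 else 0) := by
          refine Finset.sum_congr rfl (fun a _ => ?_)
          rw [Finset.card_filter]
  have hB2d : 4 * B2.card ≤ U.card := by
    refine Nat.le_of_mul_le_mul_left (c := 4 * d) ?_ (by positivity)
    calc 4 * d * (4 * B2.card) = 16 * d * B2.card := by ring
      _ ≤ D * M * B2.card := Nat.mul_le_mul_right _ hDM2.le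
      _ = M * (D * B2.card) := by ring
      _ ≤ M * (eds r U).card := Nat.mul_le_mul_left _ hB2c
      _ ≤ 4 * d * U.card := hU2
  set V := (U \ B1) \ B2 with hV
  have hVU : V ⊆ U := fun a ha => (Finset.mem_sdiff.1 (Finset.mem_sdiff.1 ha).1).1
  have hVc : U.card ≤ 2 * V.card := by
    have h1 := Finset.le_card_sdiff B2 (U \ B1)
    have h2 := Finset.le_card_sdiff B1 U
    rw [← hV] at h1
    omega
  obtain ⟨W, hWV, hWi, hWc⟩ := alon_spencer V r hs hirr (by
      intro a ha b hb c hc h1 h2 h3
      have haB : a ∉ B1 := (Finset.mem_sdiff.1 (Finset.mem_sdiff.1 ha).1).2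
      exact haB (Finset.mem_filter.2 ⟨hVU ha, b, hVU hb, c, hVU hc, h1, h2, h3⟩)) D L hLD (by
      intro v hv
      have hvB : v ∉ B2 := (Finset.mem_sdiff.1 hv).2
      have h1 : (U.filter (r v)).card ≤ D := by
        by_contra h
        exact hvB (Finset.mem_filter.2 ⟨hVU hv, by omega⟩)
      exact (Finset.card_le_card (Finset.filter_subset_filter _ hVU)).trans h1)
  refine ⟨W, hWi, ?_⟩
  calc n * L ≤ 4 * M * U.card * L := Nat.mul_le_mul_right _ hU1
    _ ≤ 4 * M * (2 * V.card) * L := Nat.mul_le_mul_right _ (Nat.mul_le_mul_left _ hVc)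
    _ = 8 * M * (V.card * L) := by ring
    _ ≤ 8 * M * (8 * D * W.card) := Nat.mul_le_mul_left _ hWc
    _ = 64 * (D * M) * W.card := by ring
    _ ≤ 64 * (17 * d) * W.card := Nat.mul_le_mul_right _ (Nat.mul_le_mul_left _ hDM)
    _ = 1088 * d * W.card := by ring

end Vale.Agent.P042.LB.H22
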