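import Mathlib

/-!
# The divisor bound (copied from P319)
-/

namespace Vale.Agent.P042.LB.H22

open Finset

/-- The divisor bound. -/
theorem divisor_bound (ε : ℝ) (hε : 0 < ε) :
    ∃ C : ℝ, 1 ≤ C ∧ ∀ n : ℕ, n ≠ 0 → (n.divisors.card : ℝ) ≤ C * (n : ℝ) ^ ε := by
  have hlog2 : 0 < Real.log 2 := Real.log_pos (by norm_num)
  set K : ℝ := 1 + 1 / (ε * Real.log 2) with hK
  have hK1 : 1 ≤ K := by
    have : 0 ≤ 1 / (ε * Real.log 2) := by positivity
    linarith
  set P0 : ℕ := ⌈(2 : ℝ) ^ (1 / ε)⌉₊ with hP0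
  refine ⟨K ^ P0, one_le_pow₀ hK1, ?_⟩
  intro n hn
  rw [Nat.card_divisors hn]
  have hn' : (n : ℝ) ^ ε = ∏ p ∈ n.primeFactors, ((p : ℝ) ^ ε) ^ (n.factorization p) := by
    conv_lhs => rw [← Nat.prod_factorization_pow_eq_self hn]
    rw [Nat.prod_factorization_eq_prod_primeFactors]
    push_cast
    rw [← Real.finsetProd_rpow _ _ (fun p _ => by positivity)]
    refine prod_congr rfl fun p _ => ?_
    rw [← Real.rpow_natCast, ← Real.rpow_natCast, ← Real.rpow_mul (by positivity),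
      ← Real.rpow_mul (by positivity), mul_comm]
  have hfac : ∀ p ∈ n.primeFactors, ((n.factorization p : ℝ) + 1) ≤
      (if p < P0 then K else 1) * ((p : ℝ) ^ ε) ^ (n.factorization p) := by
    intro p hp
    have hpp : p.Prime := Nat.prime_of_mem_primeFactors hp
    set a := n.factorization p with ha
    have hp2 : (2 : ℝ) ≤ p := by exact_mod_cast hpp.two_le
    split_ifs with h
    · have h1 : 1 + ε * Real.log 2 * a ≤ ((p : ℝ) ^ ε) ^ a := by
        have h2 : ((2 : ℝ) ^ ε) ^ a ≤ ((p : ℝ) ^ ε) ^ a :=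
          pow_le_pow_left₀ (by positivity) (Real.rpow_le_rpow (by norm_num) hp2 hε.le) _
        refine le_trans ?_ h2
        rw [Real.rpow_def_of_pos (by norm_num : (0 : ℝ) < 2), ← Real.exp_nat_mul]
        have := Real.add_one_le_exp ((a : ℝ) * (Real.log 2 * ε))
        linarith
      have h3 : K * (1 + ε * Real.log 2 * a) = K + K * (ε * Real.log 2) * a := by ring
      have h4 : K * (ε * Real.log 2) = ε * Real.log 2 + 1 := by
        rw [hK]; field_simp
      calc (a : ℝ) + 1 ≤ K * (1 + ε * Real.log 2 * a) := by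
            rw [h3, h4]
            have : 0 ≤ ε * Real.log 2 * (a : ℝ) := by positivity
            nlinarith
        _ ≤ K * ((p : ℝ) ^ ε) ^ a := mul_le_mul_of_nonneg_left h1 (by linarith)
    · rw [one_mul]
      have h1 : (2 : ℝ) ≤ (p : ℝ) ^ ε := by
        have h2 : (2 : ℝ) ^ (1 / ε) ≤ p := by
          refine (Nat.le_ceil _).trans ?_
          exact_mod_cast not_lt.1 h
        calc (2 : ℝ) = ((2 : ℝ) ^ (1 / ε)) ^ ε := by
              rw [← Real.rpow_mul (by norm_num), one_div, inv_mul_cancel₀ hε.ne', Real.rpow_one]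
          _ ≤ (p : ℝ) ^ ε := Real.rpow_le_rpow (by positivity) h2 hε.le
      have h3 : a + 1 ≤ 2 ^ a := Nat.lt_two_pow_self
      calc (a : ℝ) + 1 ≤ (2 : ℝ) ^ a := by exact_mod_cast h3
        _ ≤ _ := pow_le_pow_left₀ (by norm_num) h1 _
  push_cast
  calc ∏ p ∈ n.primeFactors, ((n.factorization p : ℝ) + 1)
      ≤ ∏ p ∈ n.primeFactors, ((if p < P0 then K else 1) * ((p : ℝ) ^ ε) ^ (n.factorization p)) :=
        prod_le_prod (fun p _ => by positivity) hfac
    _ = (∏ p ∈ n.primeFactors, (if p < P0 then K else 1)) * (n : ℝ) ^ ε := by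
        rw [prod_mul_distrib, ← hn']
    _ ≤ K ^ P0 * (n : ℝ) ^ ε := by
        refine mul_le_mul_of_nonneg_right ?_ (by positivity)
        rw [prod_ite, prod_const, prod_const_one, mul_one]
        refine pow_le_pow_right₀ hK1 ?_
        calc (n.primeFactors.filter fun p => p < P0).card ≤ (range P0).card := by
              refine card_le_card fun p hp => ?_
              exact mem_range.2 (mem_filter.1 hp).2
          _ = P0 := card_range _

/-- The divisor bound, integer exponents: `τ(n) ^ k ≤ C n`. -/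
theorem divisor_pow (k : ℕ) (hk : 0 < k) :
    ∃ C : ℕ, 1 ≤ C ∧ ∀ n : ℕ, n ≠ 0 → n.divisors.card ^ k ≤ C * n := by
  have hk' : (0 : ℝ) < k := by exact_mod_cast hk
  obtain ⟨C, hC, h⟩ := divisor_bound (1 / k) (by positivity)
  refine ⟨⌈C ^ k⌉₊, ?_, fun n hn => ?_⟩
  · rw [Nat.one_le_ceil_iff]
    positivity
  · have h1 : ((n.divisors.card : ℝ)) ^ k ≤ (C * (n : ℝ) ^ (1 / (k : ℝ))) ^ k :=
      pow_le_pow_left₀ (by positivity) (h n hn) k
    have h2 : (C * (n : ℝ) ^ (1 / (k : ℝ))) ^ k = C ^ k * n := by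
      rw [mul_pow, ← Real.rpow_natCast ((n : ℝ) ^ (1 / (k : ℝ))) k, ← Real.rpow_mul (by positivity)]
      rw [one_div, inv_mul_cancel₀ hk'.ne', Real.rpow_one]
    rw [h2] at h1
    have h3 : C ^ k ≤ (⌈C ^ k⌉₊ : ℝ) := Nat.le_ceil _
    have h4 : (n.divisors.card : ℝ) ^ k ≤ (⌈C ^ k⌉₊ : ℝ) * n :=
      h1.trans (mul_le_mul_of_nonneg_right h3 (by positivity))
    exact_mod_cast h4

end Vale.Agent.P042.LB.H22
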