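import Vale.Agent.P042.LB.H22.PrimesAP
import Vale.Agent.P042.Defs

/-!
P042, lower bounds: choice of the primes and the final bound `N ^ (1 - 1 / k + c / log log N)`.
-/

set_option autoImplicit false

namespace Vale.Agent.P042.LB.H22

open Filter Topology Polynomial

theorem tendsto_div_log : Tendsto (fun x : ℝ => x / Real.log x) atTop atTop := by
  have h1 : Tendsto (fun x : ℝ => √x / 2) atTop atTop :=
    Real.tendsto_sqrt_atTop.atTop_div_const (by norm_num)
  refine tendsto_atTop_mono' _ ?_ h1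
  filter_upwards [eventually_gt_atTop 1] with x hx
  have hx0 : 0 < x := by linarith
  have hl : 0 < Real.log x := Real.log_pos hx
  have hs : 0 < √x := Real.sqrt_pos.2 hx0
  have h2 : Real.log x ≤ 2 * √x := by
    have h3 : Real.log x = 2 * Real.log (√x) := by
      rw [Real.log_sqrt hx0.le]
      ring
    have h4 := Real.log_le_sub_one_of_pos hs
    rw [h3]
    linarith
  rw [div_le_div_iff₀ (by norm_num) hl]
  calc √x * Real.log x ≤ √x * (2 * √x) := mul_le_mul_of_nonneg_left h2 hs.le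
    _ = (√x * √x) * 2 := by ring
    _ = x * 2 := by rw [Real.mul_self_sqrt hx0.le]

/-- choice of the primes: many primes `p ≡ 1 mod m`, `p ≥ p0`, with small product -/
theorem choose_primes (k m p0 : ℕ) (hk : 1 ≤ k) (hm : 0 < m) :
    ∃ c : ℝ, 0 < c ∧ ∀ᶠ N : ℕ in atTop, ∃ P : Finset ℕ,
      (∀ p ∈ P, p.Prime ∧ m ∣ p - 1 ∧ p0 ≤ p) ∧ (∏ p ∈ P, p) ^ k ≤ N ∧
        c * (Real.log N / Real.log (Real.log N)) ≤ P.card := by
  obtain ⟨c1, Y0, hc1, hY0⟩ := primes_ap m hm
  have hk0 : (0 : ℝ) < k := by exact_mod_cast hk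
  have hk1 : (1 : ℝ) ≤ k := by exact_mod_cast hk
  have hl4 : 1 < Real.log 4 := by
    have h := Real.log_two_gt_d9
    have h2 : Real.log 4 = 2 * Real.log 2 := by
      rw [show (4 : ℝ) = 2 ^ 2 by norm_num, Real.log_pow]
      norm_num
    rw [h2]
    linarith
  set κ : ℝ := k * Real.log 4 with hκ
  have hκ1 : 1 < κ := by
    calc (1 : ℝ) < Real.log 4 := hl4
      _ = 1 * Real.log 4 := (one_mul _).symm
      _ ≤ κ := mul_le_mul_of_nonneg_right hk1 (by linarith)
  have hκ0 : 0 < κ := by linarith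
  have hlogN : Tendsto (fun N : ℕ => Real.log (N : ℝ)) atTop atTop :=
    Real.tendsto_log_atTop.comp tendsto_natCast_atTop_atTop
  have hX : Tendsto (fun N : ℕ => Real.log (N : ℝ) / Real.log (Real.log N)) atTop atTop :=
    tendsto_div_log.comp hlogN
  refine ⟨c1 / (4 * κ), by positivity, ?_⟩
  filter_upwards [hlogN.eventually_ge_atTop (2 * κ * (|Y0| + 3)),
    hX.eventually_ge_atTop (p0 * (4 * κ) / c1), eventually_ge_atTop 1] with N h1 h2 hN1
  set Lg : ℝ := Real.log N with hLg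
  have hL0 : 0 < Lg := lt_of_lt_of_le (by positivity) h1
  set Y : ℕ := ⌊Lg / κ⌋₊ with hY
  have hYle : (Y : ℝ) ≤ Lg / κ := Nat.floor_le (by positivity)
  have hYlt : Lg / κ < (Y : ℝ) + 1 := Nat.lt_floor_add_one _
  have hbig : 2 * (|Y0| + 3) ≤ Lg / κ := by
    rw [le_div_iff₀ hκ0]
    linarith
  have habs : 0 ≤ |Y0| := abs_nonneg _
  have hYhalf : Lg / (2 * κ) ≤ (Y : ℝ) := by
    have h3 : Lg / (2 * κ) = (Lg / κ) / 2 := by
      field_simp
    rw [h3]
    linarith
  have hYY0 : Y0 ≤ (Y : ℝ) := by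
    have := le_abs_self Y0
    linarith
  have hY2 : (2 : ℝ) ≤ Y := by linarith
  have hcard := hY0 Y hYY0
  have hlY : 0 < Real.log Y := Real.log_pos (by linarith)
  have hYL : (Y : ℝ) ≤ Lg := hYle.trans (div_le_self hL0.le hκ1.le)
  have hlYL : Real.log Y ≤ Real.log Lg := Real.log_le_log (by linarith) hYL
  have hlL : 0 < Real.log Lg := lt_of_lt_of_le hlY hlYL
  set P0 := (Finset.Icc 1 Y).filter (fun p => p.Prime ∧ m ∣ p - 1) with hP0
  refine ⟨P0.filter (fun p => p0 ≤ p), ?_, ?_, ?_⟩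
  · intro p hp
    rw [Finset.mem_filter, hP0, Finset.mem_filter] at hp
    exact ⟨hp.1.2.1, hp.1.2.2, hp.2⟩
  · -- the product
    have hsub : ∏ p ∈ P0.filter (fun p => p0 ≤ p), p ≤ primorial Y := by
      rw [primorial]
      refine Finset.prod_le_prod_of_subset_of_one_le' ?_ ?_
      · intro p hp
        rw [Finset.mem_filter, hP0, Finset.mem_filter, Finset.mem_Icc] at hp
        rw [Finset.mem_filter, Finset.mem_range]
        exact ⟨by omega, hp.1.2.1⟩
      · intro p hp _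
        exact (Finset.mem_filter.1 hp).2.one_le
    have h4 : ∏ p ∈ P0.filter (fun p => p0 ≤ p), p ≤ 4 ^ Y := hsub.trans (primorial_le_four_pow Y)
    have h5 : (4 ^ Y) ^ k ≤ N := by
      have h6 : ((4 : ℝ) ^ Y) ^ k ≤ N := by
        have hN0 : (0 : ℝ) < N := by exact_mod_cast hN1
        rw [← Real.log_le_log_iff (by positivity) hN0, Real.log_pow, Real.log_pow]
        have h7 : (Y : ℝ) * κ ≤ Lg := by
          rw [← le_div_iff₀ hκ0]
          exact hYle
        calc (k : ℝ) * (Y * Real.log 4) = Y * κ := by rw [hκ]; ring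
          _ ≤ Lg := h7
      exact_mod_cast h6
    exact (Nat.pow_le_pow_left h4 k).trans h5
  · -- the number
    have h8 : (P0.card : ℝ) ≤ (P0.filter (fun p => p0 ≤ p)).card + p0 := by
      have h9 : P0 ⊆ P0.filter (fun p => p0 ≤ p) ∪ Finset.range p0 := by
        intro p hp
        rw [Finset.mem_union, Finset.mem_filter, Finset.mem_range]
        rcases lt_or_ge p p0 with h | h
        · exact Or.inr h
        · exact Or.inl ⟨hp, h⟩
      have h10 := (Finset.card_le_card h9).trans (Finset.card_union_le _ _)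
      rw [Finset.card_range] at h10
      exact_mod_cast h10
    have h11 : c1 / (2 * κ) * (Lg / Real.log Lg) ≤ P0.card := by
      refine le_trans ?_ hcard
      calc c1 / (2 * κ) * (Lg / Real.log Lg) = c1 * (Lg / (2 * κ)) / Real.log Lg := by
            field_simp
        _ ≤ c1 * Y / Real.log Lg :=
            div_le_div_of_nonneg_right (mul_le_mul_of_nonneg_left hYhalf hc1.le) hlL.le
        _ ≤ c1 * Y / Real.log Y :=
            div_le_div_of_nonneg_left (by positivity) hlY hlYL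
    have h12 : (p0 : ℝ) ≤ c1 / (4 * κ) * (Lg / Real.log Lg) := by
      rw [div_le_iff₀ hc1] at h2
      rw [div_mul_eq_mul_div, le_div_iff₀ (by positivity)]
      linarith
    have h13 : c1 / (2 * κ) * (Lg / Real.log Lg) = 2 * (c1 / (4 * κ) * (Lg / Real.log Lg)) := by
      field_simp
      ring
    linarith

theorem final_of (h : ℤ[X]) (hk : 2 ≤ h.natDegree) (LW : ℕ → ℝ → Prop)
    (hloc : ∃ δ : ℝ, 0 < δ ∧ δ ≤ 1 / 2 ∧ ∃ p0 : ℕ, ∀ p : ℕ, p.Prime → p0 ≤ p →
      2 * h.natDegree ∣ p - 1 → LW p δ)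
    (hasm : ∀ δ : ℝ, 0 < δ → δ ≤ 1 / 2 → ∃ c : ℝ, 0 < c ∧ ∀ P : Finset ℕ,
      (∀ p ∈ P, p.Prime) → (∀ p ∈ P, LW p δ) → ∀ N : ℕ, 1 ≤ N →
      (∏ p ∈ P, p) ^ h.natDegree ≤ N →
      c * (N : ℝ) ^ (1 - 1 / (h.natDegree : ℝ)) * (1 - δ)⁻¹ ^ P.card ≤ (rMax h N : ℝ)) :
    ∃ c : ℝ, 0 < c ∧ ∃ N0 : ℕ, ∀ N : ℕ, N0 ≤ N →
      (N : ℝ) ^ (1 - 1 / (h.natDegree : ℝ) + c / Real.log (Real.log N)) ≤ (rMax h N : ℝ) := by
  obtain ⟨δ, hδ0, hδ1, p0, hp0⟩ := hloc
  obtain ⟨c, hc, hA⟩ := hasm δ hδ0 hδ1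
  obtain ⟨c2, hc2, hP⟩ := choose_primes h.natDegree (2 * h.natDegree) p0 (by omega) (by omega)
  have hlogN : Tendsto (fun N : ℕ => Real.log (N : ℝ)) atTop atTop :=
    Real.tendsto_log_atTop.comp tendsto_natCast_atTop_atTop
  have hX : Tendsto (fun N : ℕ => Real.log (N : ℝ) / Real.log (Real.log N)) atTop atTop :=
    tendsto_div_log.comp hlogN
  refine ⟨δ * c2 / 2, by positivity, ?_⟩
  obtain ⟨N0, hN0⟩ := eventually_atTop.1 (hP.and
    ((hX.eventually_ge_atTop (-Real.log c * 2 / (δ * c2))).and (eventually_ge_atTop 1)))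
  refine ⟨N0, fun N hN => ?_⟩
  obtain ⟨⟨P, hPp, hPN, hPc⟩, h2, hN1⟩ := hN0 N hN
  have hNp : (0 : ℝ) < N := by exact_mod_cast hN1
  have h3 := hA P (fun p hp => (hPp p hp).1)
    (fun p hp => hp0 p (hPp p hp).1 (hPp p hp).2.2 (hPp p hp).2.1) N hN1 hPN
  refine le_trans ?_ h3
  set X : ℝ := Real.log N / Real.log (Real.log N) with hXd
  have h4 : Real.exp (δ * P.card) ≤ (1 - δ)⁻¹ ^ P.card := by
    have h5 : Real.exp δ ≤ (1 - δ)⁻¹ := by
      have h6 := Real.add_one_le_exp (-δ)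
      rw [Real.exp_neg] at h6
      rw [le_inv_comm₀ (Real.exp_pos _) (by linarith)]
      linarith
    calc Real.exp (δ * P.card) = Real.exp δ ^ P.card := by
          rw [← Real.exp_nat_mul]
          ring_nf
      _ ≤ _ := pow_le_pow_left₀ (Real.exp_pos _).le h5 _
  have h7 : -Real.log c ≤ δ * c2 / 2 * X := by
    rw [div_le_iff₀ (by positivity)] at h2
    linarith
  have h8 : δ * c2 / 2 * X ≤ Real.log c + δ * P.card := by
    have h9 : δ * (c2 * X) ≤ δ * P.card := mul_le_mul_of_nonneg_left hPc hδ0.le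
    have h10 : δ * (c2 * X) = 2 * (δ * c2 / 2 * X) := by ring
    linarith
  have h11 : (N : ℝ) ^ (δ * c2 / 2 / Real.log (Real.log N)) = Real.exp (δ * c2 / 2 * X) := by
    rw [Real.rpow_def_of_pos hNp]
    congr 1
    rw [hXd]
    ring
  rw [Real.rpow_add hNp, h11]
  calc (N : ℝ) ^ (1 - 1 / (h.natDegree : ℝ)) * Real.exp (δ * c2 / 2 * X)
      ≤ (N : ℝ) ^ (1 - 1 / (h.natDegree : ℝ)) * Real.exp (Real.log c + δ * P.card) :=
        mul_le_mul_of_nonneg_left (Real.exp_le_exp.2 h8) (Real.rpow_nonneg hNp.le _)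
    _ = c * (N : ℝ) ^ (1 - 1 / (h.natDegree : ℝ)) * Real.exp (δ * P.card) := by
        rw [Real.exp_add, Real.exp_log hc]
        ring
    _ ≤ _ := mul_le_mul_of_nonneg_left h4 (by positivity)

end Vale.Agent.P042.LB.H22
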