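import Vale.Agent.P042.LB.H409.Mix

/-!
P042, lower bounds: helper409's `lb_mix` with a constant factor.
-/

set_option autoImplicit false

namespace Vale.Agent.P042.LB.H22

open Polynomial

theorem lb_mix_a (f g : ℤ[X]) (hg : Squarefree (g.map (Int.castRingHom ℚ)))
    (hgd : 1 ≤ g.natDegree) (a m : ℕ) (ha : 0 < a) (hm : 2 ≤ m) (p : ℕ) (hp : p.Prime)
    (hf : ∀ n : ℤ, ¬ (p : ℤ) ∣ f.eval n) (S : Finset ℕ) (hS : ∀ x ∈ S, x < p)
    (hS0 : S.Nonempty)
    (hSU : ∀ x ∈ S, ∀ y ∈ S, ∀ n s : ℤ, (p : ℤ) ∣ g.eval n →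
      (p : ℤ) ∣ (y : ℤ) - x - f.eval n * s ^ m → (p : ℤ) ∣ s) :
    ∃ c : ℝ, 0 < c ∧ ∀ N : ℕ, 1 ≤ N →
      c * (N : ℝ) ^ (1 - (1 - Real.log S.card / Real.log p) / ((f * g ^ m).natDegree : ℝ)) ≤
        (rMax (C (a : ℤ) * (f * g ^ m)) N : ℝ) := by
  obtain ⟨c0, hc0, h0⟩ := lb_mix f g hg hgd m hm p hp hf S hS hS0 hSU
  set e : ℝ := 1 - (1 - Real.log S.card / Real.log p) / ((f * g ^ m).natDegree : ℝ) with he
  -- the exponent lies in [0, 1]
  have hlp : 0 < Real.log p := Real.log_pos (by exact_mod_cast hp.one_lt)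
  have hSc : 1 ≤ S.card := hS0.card_pos
  have hSp : S.card ≤ p := by
    calc S.card ≤ (Finset.range p).card :=
          Finset.card_le_card (fun x hx => Finset.mem_range.2 (hS x hx))
      _ = p := Finset.card_range p
  have ht0 : 0 ≤ Real.log S.card / Real.log p :=
    div_nonneg (Real.log_natCast_nonneg _) hlp.le
  have ht1 : Real.log S.card / Real.log p ≤ 1 := by
    rw [div_le_one hlp]
    exact Real.log_le_log (by exact_mod_cast hSc) (by exact_mod_cast hSp)
  have hf0 : f ≠ 0 := by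
    rintro rfl
    exact hf 0 (by simp)
  have hg0 : g ≠ 0 := by
    rintro rfl
    simp at hgd
  have hk : 1 ≤ (f * g ^ m).natDegree := by
    rw [natDegree_mul hf0 (pow_ne_zero m hg0), natDegree_pow]
    nlinarith
  have hkR : (1 : ℝ) ≤ ((f * g ^ m).natDegree : ℝ) := by exact_mod_cast hk
  have he1 : e ≤ 1 := by
    have : 0 ≤ (1 - Real.log S.card / Real.log p) / ((f * g ^ m).natDegree : ℝ) :=
      div_nonneg (by linarith) (by linarith)
    linarith
  have he0 : 0 ≤ e := by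
    have : (1 - Real.log S.card / Real.log p) / ((f * g ^ m).natDegree : ℝ) ≤ 1 := by
      rw [div_le_one (by linarith)]
      linarith
    linarith
  have haR : (0 : ℝ) < a := by exact_mod_cast ha
  have ha1 : (1 : ℝ) ≤ a := by exact_mod_cast ha
  refine ⟨min (1 / a) (c0 * (1 / (2 * a)) ^ e), lt_min (by positivity) (by positivity),
    fun N hN => ?_⟩
  have hNR : (1 : ℝ) ≤ N := by exact_mod_cast hN
  rcases lt_or_ge N a with hNa | hNa
  · have h1 : (1 : ℝ) ≤ (rMax (C (a : ℤ) * (f * g ^ m)) N : ℝ) := by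
      exact_mod_cast Sq409.one_le_rMax _ N hN
    have h2 : (N : ℝ) ^ e ≤ a := by
      calc (N : ℝ) ^ e ≤ (N : ℝ) ^ (1 : ℝ) := Real.rpow_le_rpow_of_exponent_le hNR he1
        _ = N := Real.rpow_one _
        _ ≤ a := by exact_mod_cast hNa.le
    calc _ ≤ 1 / (a : ℝ) * (N : ℝ) ^ e :=
          mul_le_mul_of_nonneg_right (min_le_left _ _) (by positivity)
      _ ≤ 1 / (a : ℝ) * a := mul_le_mul_of_nonneg_left h2 (by positivity)
      _ = 1 := by field_simp
      _ ≤ _ := h1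
  · have hN' : 1 ≤ N / a := (Nat.one_le_div_iff ha).2 hNa
    have hmul : a * (N / a) ≤ N := Nat.mul_div_le N a
    have h1 := Sq409.rMax_dilate (f * g ^ m) (a : ℤ) (by exact_mod_cast ha) (N / a) N
      (by exact_mod_cast hmul)
    have h2 := h0 (N / a) hN'
    have h3 : (1 / (2 * a) : ℝ) * N ≤ ((N / a : ℕ) : ℝ) := by
      have h4 : N < a * (N / a) + a := by
        have h5 := Nat.div_add_mod N a
        have h6 := Nat.mod_lt N ha
        omega
      have h7 : N ≤ 2 * a * (N / a) := by nlinarith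
      have h8 : (N : ℝ) ≤ 2 * a * ((N / a : ℕ) : ℝ) := by exact_mod_cast h7
      rw [one_div, inv_mul_le_iff₀ (by positivity)]
      exact h8
    calc _ ≤ c0 * (1 / (2 * a)) ^ e * (N : ℝ) ^ e :=
          mul_le_mul_of_nonneg_right (min_le_right _ _) (by positivity)
      _ = c0 * ((1 / (2 * a)) * N) ^ e := by
          rw [Real.mul_rpow (by positivity) (by positivity)]
          ring
      _ ≤ c0 * ((N / a : ℕ) : ℝ) ^ e :=
          mul_le_mul_of_nonneg_left (Real.rpow_le_rpow (by positivity) h3 he0) hc0.le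
      _ ≤ (rMax (f * g ^ m) (N / a) : ℝ) := h2
      _ ≤ _ := by exact_mod_cast h1

end Vale.Agent.P042.LB.H22
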