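import Vale.Agent.P042.LB.H22.Tri
import Vale.Agent.P042.LB.H22.Div

/-!
P042, lower bounds: a large independent set in the Cayley graph of a convex sequence growing
like a `k`-th power.
-/

set_option autoImplicit false

namespace Vale.Agent.P042.LB.H22

open Finset

open Classical in
theorem seq_indep {a : ℕ → ℕ} (ha : Seq a) (k n0 : ℕ) (hk : 1 ≤ k) (hn0 : 1 ≤ n0)
    (hgr : ∀ j, (n0 + j) ^ k ≤ 2 * a j) :
    ∃ K : ℕ, 1 ≤ K ∧ ∀ T N : ℕ, 1 ≤ T → 1 ≤ N → N ≤ (T + 1) ^ (8 * k) →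
      ∃ W : Finset (Fin N), (∀ x ∈ W, ∀ y ∈ W, ¬ adj a x y) ∧
        N * Nat.log 4 T ≤ K * T ^ 8 * W.card := by
  obtain ⟨C, hC1, hC⟩ := divisor_pow (8 * k) (by omega)
  refine ⟨1088 * (1024 * C), by omega, fun T N hT hN hNT => ?_⟩
  -- number of indices
  have hIdx : (Idx a N).card ≤ 512 * T ^ 8 := by
    have hsub : Idx a N ⊆ range (2 * (T + 1) ^ 8) := by
      intro j hj
      rw [mem_Idx ha] at hj
      rw [mem_range]
      by_contra hcon
      rw [not_lt] at hcon
      have h1 : (2 * (T + 1) ^ 8) ^ k < (n0 + j) ^ k :=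
        Nat.pow_lt_pow_left (by omega) (by omega)
      have h2 := hgr j
      have h3 : 2 * (T + 1) ^ (8 * k) ≤ (2 * (T + 1) ^ 8) ^ k := by
        rw [mul_pow, ← pow_mul]
        refine Nat.mul_le_mul_right _ ?_
        calc 2 = 2 ^ 1 := by norm_num
          _ ≤ 2 ^ k := Nat.pow_le_pow_right (by norm_num) hk
      omega
    calc (Idx a N).card ≤ (range (2 * (T + 1) ^ 8)).card := card_le_card hsub
      _ = 2 * (T + 1) ^ 8 := card_range _
      _ ≤ 2 * (2 * T) ^ 8 := Nat.mul_le_mul_left _ (Nat.pow_le_pow_left (by omega) 8)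
      _ = 512 * T ^ 8 := by ring
  -- divisors
  have hdiv : ∀ i ∈ Idx a N, (a i).divisors.card ≤ 2 * C * T := by
    intro i hi
    rw [mem_Idx ha] at hi
    have h1 := hC (a i) (ha.pos i).ne'
    have h2 : (a i).divisors.card ^ (8 * k) ≤ (C * (T + 1)) ^ (8 * k) := by
      calc (a i).divisors.card ^ (8 * k) ≤ C * a i := h1
        _ ≤ C * (T + 1) ^ (8 * k) := Nat.mul_le_mul_left _ (hi.le.trans hNT)
        _ ≤ C ^ (8 * k) * (T + 1) ^ (8 * k) :=
            Nat.mul_le_mul_right _ (Nat.le_self_pow (by omega) C)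
        _ = (C * (T + 1)) ^ (8 * k) := (mul_pow _ _ _).symm
    have h3 := (Nat.pow_le_pow_iff_left (by omega : 8 * k ≠ 0)).1 h2
    calc (a i).divisors.card ≤ C * (T + 1) := h3
      _ ≤ C * (2 * T) := Nat.mul_le_mul_left _ (by omega)
      _ = 2 * C * T := by ring
  have hsum : ∑ i ∈ Idx a N, (a i).divisors.card ≤ 1024 * C * T ^ 9 := by
    calc ∑ i ∈ Idx a N, (a i).divisors.card ≤ (Idx a N).card • (2 * C * T) :=
          sum_le_card_nsmul _ _ _ hdiv
      _ = (Idx a N).card * (2 * C * T) := smul_eq_mul _ _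
      _ ≤ 512 * T ^ 8 * (2 * C * T) := Nat.mul_le_mul_right _ hIdx
      _ = 1024 * C * T ^ 9 := by ring
  have hT0 : 0 < T := hT
  have hTp : ∀ i j : ℕ, i ≤ j → T ^ i ≤ T ^ j := fun i j h => Nat.pow_le_pow_right hT0 h
  have htri := tris_le ha N
  obtain ⟨W, hW, hWc⟩ := few_triangles (fun x y : Fin N => adj a x y)
    (fun x y h => adj_symm a h) (fun x => adj_irrefl ha x) (222 * C * T ^ 5)
    (by
      have hC0 : 0 < C := hC1
      have : 0 < 222 * C * T ^ 5 := by positivity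
      exact this) (1024 * C * T ^ 8) (Nat.log 4 T)
    (by
      calc 222 * C * T ^ 5 ≤ 1024 * C * T ^ 5 := by
            refine Nat.mul_le_mul_right _ (Nat.mul_le_mul_right _ (by norm_num))
        _ ≤ 1024 * C * T ^ 8 := Nat.mul_le_mul_left _ (hTp 5 8 (by norm_num)))
    (by
      intro x
      refine (deg_le ha N x).trans ?_
      calc 2 * (Idx a N).card ≤ 2 * (512 * T ^ 8) := Nat.mul_le_mul_left _ hIdx
        _ = 1024 * 1 * T ^ 8 := by ring
        _ ≤ 1024 * C * T ^ 8 := Nat.mul_le_mul_right _ (Nat.mul_le_mul_left _ hC1))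
    (by
      rw [Fintype.card_fin]
      calc 8 * (tris (fun x y : Fin N => adj a x y) univ).card
          ≤ 8 * (6 * (N * ∑ i ∈ Idx a N, (a i).divisors.card)) := Nat.mul_le_mul_left _ htri
        _ ≤ 8 * (6 * (N * (1024 * C * T ^ 9))) :=
            Nat.mul_le_mul_left _ (Nat.mul_le_mul_left _ (Nat.mul_le_mul_left _ hsum))
        _ = N * (49152 * (C * 1) * T ^ 9) := by ring
        _ ≤ N * (49284 * (C * C) * T ^ 10) := by
            refine Nat.mul_le_mul_left _ (Nat.mul_le_mul (Nat.mul_le_mul (by norm_num) ?_)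
              (hTp 9 10 (by norm_num)))
            exact Nat.mul_le_mul_left _ hC1
        _ = N * (222 * C * T ^ 5) ^ 2 := by ring)
    (by
      calc 4 ^ (Nat.log 4 T) * (222 * C * T ^ 5) ≤ T * (222 * C * T ^ 5) :=
            Nat.mul_le_mul_right _ (Nat.pow_log_le_self 4 hT0.ne')
        _ = 222 * (C * T ^ 6) := by ring
        _ ≤ 16384 * (C * T ^ 8) :=
            Nat.mul_le_mul (by norm_num) (Nat.mul_le_mul_left _ (hTp 6 8 (by norm_num)))
        _ = 16 * (1024 * C * T ^ 8) := by ring)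
  refine ⟨W, hW, ?_⟩
  rw [Fintype.card_fin] at hWc
  calc N * Nat.log 4 T ≤ 1088 * (1024 * C * T ^ 8) * W.card := hWc
    _ = 1088 * (1024 * C) * T ^ 8 * W.card := by ring

end Vale.Agent.P042.LB.H22
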