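import Vale.Agent.P030.H404.PNT

/-!
P042, lower bounds: a Chebyshev type lower bound for primes `p` with `m ∣ p - 1`.
-/

set_option autoImplicit false

namespace Vale.Agent.P042.LB.H22

open Filter Topology ArithmeticFunction

theorem rc_le (m k : ℕ) :
    vonMangoldt.residueClass (1 : ZMod m) k ≤
      (if k.Prime ∧ m ∣ k - 1 then Real.log k else 0)
        + (vonMangoldt k - if k.Prime then Real.log k else 0) := by
  by_cases hk : k.Prime
  · have hL : vonMangoldt k = Real.log k := vonMangoldt_apply_prime hk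
    rw [if_pos hk, hL, sub_self, add_zero]
    by_cases h1 : (k : ZMod m) = 1
    · have hd : m ∣ k - 1 := by
        rw [← ZMod.natCast_eq_zero_iff, Nat.cast_sub hk.one_le, h1, Nat.cast_one, sub_self]
      rw [if_pos ⟨hk, hd⟩]
      exact (vonMangoldt.residueClass_le _ k).trans hL.le
    · have h0 : vonMangoldt.residueClass (1 : ZMod m) k = 0 := by
        rw [vonMangoldt.residueClass]
        exact Set.indicator_of_notMem (s := {n : ℕ | (n : ZMod m) = 1}) h1 (fun n => vonMangoldt n)
      rw [h0]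
      split_ifs
      · exact Real.log_natCast_nonneg k
      · exact le_rfl
  · rw [if_neg hk, if_neg (fun h => hk h.1), zero_add, sub_zero]
    exact vonMangoldt.residueClass_le _ k

/-- **Chebyshev lower bound for `p ≡ 1 mod m`**, from the prime number theorem in progressions. -/
theorem primes_ap (m : ℕ) (hm : 0 < m) :
    ∃ c Y0 : ℝ, 0 < c ∧ ∀ Y : ℕ, Y0 ≤ Y →
      c * Y / Real.log Y ≤
        (((Finset.Icc 1 Y).filter (fun p => p.Prime ∧ m ∣ p - 1)).card : ℝ) := by
  have : NeZero m := ⟨hm.ne'⟩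
  set A : ℝ := (m.totient : ℝ)⁻¹ with hA
  have hA0 : 0 < A := by
    have : 0 < m.totient := Nat.totient_pos.2 hm
    positivity
  have h1 := Vale.Agent.P030.H404.psi_residue_tendsto (q := m) (a := 1) isUnit_one
  have h2 : Tendsto (fun x : ℝ => 2 * (Real.log x / x ^ (1 / 2 : ℝ))) atTop (𝓝 0) := by
    have := (isLittleO_log_rpow_atTop (r := 1 / 2) (by norm_num)).tendsto_div_nhds_zero
    simpa using this.const_mul 2
  have e1 := h1.eventually (eventually_gt_nhds (show A / 2 < A by linarith))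
  have e2 := h2.eventually (eventually_lt_nhds (show (0 : ℝ) < A / 4 by linarith))
  obtain ⟨x0, hx0⟩ := eventually_atTop.1 (e1.and (e2.and (eventually_ge_atTop 2)))
  refine ⟨A / 4, x0, by linarith, fun Y hY => ?_⟩
  obtain ⟨f1, f2, f3⟩ := hx0 Y hY
  have hY0 : (0 : ℝ) < Y := by linarith
  have hlY : 0 < Real.log Y := Real.log_pos (by linarith)
  rw [Nat.floor_natCast, lt_div_iff₀ hY0] at f1
  -- the prime power part
  have g1 : Chebyshev.psi Y - Chebyshev.theta Y ≤ A / 4 * Y := by
    have := Chebyshev.psi_sub_theta_le (x := (Y : ℝ)) (by linarith)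
    refine this.trans ?_
    have hs : 0 < √(Y : ℝ) := Real.sqrt_pos.mpr hY0
    rw [← Real.sqrt_eq_rpow] at f2
    have h3 : 2 * √(Y : ℝ) * Real.log Y = 2 * (Real.log Y / √(Y : ℝ)) * Y := by
      have h4 : (Y : ℝ) = √(Y : ℝ) * √(Y : ℝ) := (Real.mul_self_sqrt hY0.le).symm
      have h5 : Real.log Y / √(Y : ℝ) * (√(Y : ℝ) * √(Y : ℝ)) = Real.log Y * √(Y : ℝ) := by
        field_simp
      calc 2 * √(Y : ℝ) * Real.log Y = 2 * (Real.log Y * √(Y : ℝ)) := by ring
        _ = 2 * (Real.log Y / √(Y : ℝ) * (√(Y : ℝ) * √(Y : ℝ))) := by rw [h5]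
        _ = 2 * (Real.log Y / √(Y : ℝ)) * Y := by rw [← h4]; ring
    rw [h3]
    exact mul_le_mul_of_nonneg_right f2.le hY0.le
  have g2 : (∑ k ∈ Finset.Icc 1 Y, vonMangoldt.residueClass (1 : ZMod m) k) ≤
      (((Finset.Icc 1 Y).filter (fun p => p.Prime ∧ m ∣ p - 1)).card : ℝ) * Real.log Y
        + (Chebyshev.psi Y - Chebyshev.theta Y) := by
    calc (∑ k ∈ Finset.Icc 1 Y, vonMangoldt.residueClass (1 : ZMod m) k)
        ≤ ∑ k ∈ Finset.Icc 1 Y, ((if k.Prime ∧ m ∣ k - 1 then Real.log k else 0)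
        + (vonMangoldt k - if k.Prime then Real.log k else 0)) :=
          Finset.sum_le_sum (fun k _ => rc_le m k)
      _ = (∑ k ∈ (Finset.Icc 1 Y).filter (fun p => p.Prime ∧ m ∣ p - 1), Real.log k)
          + (Chebyshev.psi Y - Chebyshev.theta Y) := by
          rw [Finset.sum_add_distrib, Finset.sum_sub_distrib, ← Finset.sum_filter,
            ← Finset.sum_filter]
          congr 1
          rw [Chebyshev.psi, Chebyshev.theta, Nat.floor_natCast]
          rfl
      _ ≤ _ := by
          refine add_le_add ?_ le_rfl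
          rw [← nsmul_eq_mul]
          refine Finset.sum_le_card_nsmul _ _ _ (fun k hk => ?_)
          have hk1 := Finset.mem_Icc.1 (Finset.mem_filter.1 hk).1
          exact Real.log_le_log (by exact_mod_cast hk1.1) (by exact_mod_cast hk1.2)
  rw [div_le_iff₀ hlY]
  linarith

end Vale.Agent.P042.LB.H22
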