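import Vale.Agent.P042.LB.H22.Final
import Vale.Agent.P042.LB.H397.Assemble
import Vale.Agent.P042.LB.H522.Loc4

/-!
P042, lower bounds: `r_h(N) ≥ N ^ (1 - 1 / k + c / log log N)` for every `h` of degree `k ≥ 2`.
-/

set_option autoImplicit false

namespace Vale.Agent.P042.LB.H22

open Polynomial

theorem lb_loglog (h : ℤ[X]) (hk : 2 ≤ h.natDegree) :
    ∃ c : ℝ, 0 < c ∧ ∃ N0 : ℕ, ∀ N : ℕ, N0 ≤ N →
      (N : ℝ) ^ (1 - 1 / (h.natDegree : ℝ) + c / Real.log (Real.log N)) ≤ (rMax h N : ℝ) := by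
  refine final_of h hk (LocW h) ?_ (fun δ h0 h1 => assemble h hk δ h0 h1)
  obtain ⟨δ, h0, h1, p0, hp0⟩ := local_gain h hk
  exact ⟨δ, h0, h1, p0, fun p hp hpp hd => hp0 p hp hpp (Or.inl hd)⟩

end Vale.Agent.P042.LB.H22
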