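import Vale.Agent.P042.LB.H22.Col
import Mathlib.NumberTheory.Divisors

/-!
P042, lower bounds: the Cayley graph of a convex sequence with the divisibility
`l - j ∣ a l - a j` has few triangles.
-/

set_option autoImplicit false

namespace Vale.Agent.P042.LB.H22

open Finset

/-- values of a polynomial: positive, strictly increasing, strictly convex, congruence
preserving -/
structure Seq (a : ℕ → ℕ) : Prop where
  pos : ∀ j, 0 < a j
  mono : StrictMono a
  conv : ∀ j, 2 * a (j + 1) < a j + a (j + 2)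
  dvd : ∀ j e, e ∣ a (j + e) - a j

/-- adjacency: the distance is a value -/
def adj (a : ℕ → ℕ) (x y : ℕ) : Prop := ∃ j, x + a j = y ∨ y + a j = x

theorem adj_symm (a : ℕ → ℕ) {x y : ℕ} (h : adj a x y) : adj a y x := by
  obtain ⟨j, hj⟩ := h
  exact ⟨j, hj.symm⟩

theorem adj_irrefl {a : ℕ → ℕ} (ha : Seq a) (x : ℕ) : ¬ adj a x x := by
  rintro ⟨j, hj⟩
  have := ha.pos j
  omega

theorem Seq.lt {a : ℕ → ℕ} (ha : Seq a) (j : ℕ) : j < a j := by
  induction j with
  | zero => exact ha.pos 0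
  | succ n ih =>
    have := ha.mono (Nat.lt_succ_self n)
    have h2 : a n < a (n + 1) := this
    omega

/-- `j ↦ a (j + e) - a j` is strictly increasing for `e ≥ 1` -/
theorem Seq.step {a : ℕ → ℕ} (ha : Seq a) (e : ℕ) (j : ℕ) :
    a (j + (e + 1)) + a (j + 1) < a (j + 1 + (e + 1)) + a j := by
  induction e with
  | zero =>
    have := ha.conv j
    have h2 : j + 1 + (0 + 1) = j + 2 := by ring
    have h3 : j + (0 + 1) = j + 1 := by ring
    rw [h2, h3]
    omega
  | succ n ih =>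
    have h1 := ha.conv (j + (n + 1))
    have h2 : j + (n + 1) + 1 = j + (n + 1 + 1) := by ring
    have h3 : j + (n + 1) + 2 = j + 1 + (n + 1 + 1) := by ring
    have h4 : j + 1 + (n + 1) = j + (n + 1 + 1) := by ring
    rw [h2, h3] at h1
    rw [h4] at ih
    omega

theorem Seq.phi {a : ℕ → ℕ} (ha : Seq a) (e : ℕ) (he : 1 ≤ e) :
    StrictMono (fun j => (a (j + e) : ℤ) - a j) := by
  refine strictMono_nat_of_lt_succ (fun j => ?_)
  obtain ⟨e, rfl⟩ : ∃ e', e = e' + 1 := ⟨e - 1, by omega⟩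
  have := ha.step e j
  have h2 : ((a (j + (e + 1)) + a (j + 1) : ℕ) : ℤ) < ((a (j + 1 + (e + 1)) + a j : ℕ) : ℤ) := by
    exact_mod_cast this
  push_cast at h2
  linarith

/-- the indices of values below `N` -/
def Idx (a : ℕ → ℕ) (N : ℕ) : Finset ℕ := (range N).filter (fun j => a j < N)

theorem mem_Idx {a : ℕ → ℕ} (ha : Seq a) {N j : ℕ} : j ∈ Idx a N ↔ a j < N := by
  rw [Idx, mem_filter, mem_range]
  exact ⟨fun h => h.2, fun h => ⟨(ha.lt j).trans h, h⟩⟩

open Classical in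
theorem deg_le {a : ℕ → ℕ} (ha : Seq a) (N : ℕ) (x : Fin N) :
    (univ.filter (fun y : Fin N => adj a x y)).card ≤ 2 * (Idx a N).card := by
  have hsub : (univ.filter (fun y : Fin N => adj a x y)).map Fin.valEmbedding ⊆
      (Idx a N).image (fun j => (x : ℕ) + a j) ∪ (Idx a N).image (fun j => (x : ℕ) - a j) := by
    intro y hy
    rw [mem_map] at hy
    obtain ⟨y, hy, rfl⟩ := hy
    obtain ⟨j, hj⟩ := (mem_filter.1 hy).2
    have hyN := y.2
    have hxN := x.2
    rw [mem_union, mem_image, mem_image]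
    rcases hj with hj | hj
    · left
      exact ⟨j, (mem_Idx ha).2 (by omega), hj⟩
    · right
      refine ⟨j, (mem_Idx ha).2 (by omega), ?_⟩
      simp only [Fin.valEmbedding_apply]
      omega
  calc (univ.filter (fun y : Fin N => adj a x y)).card
      = ((univ.filter (fun y : Fin N => adj a x y)).map Fin.valEmbedding).card :=
        (card_map _).symm
    _ ≤ _ := card_le_card hsub
    _ ≤ (Idx a N).card + (Idx a N).card :=
        (card_union_le _ _).trans (Nat.add_le_add card_image_le card_image_le)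
    _ = 2 * (Idx a N).card := by ring

open Classical in
/-- sorted triangles -/
theorem sorted_le {a : ℕ → ℕ} (ha : Seq a) (N : ℕ) :
    (univ.filter (fun p : Fin N × Fin N × Fin N => p.1 < p.2.1 ∧ p.2.1 < p.2.2 ∧
      adj a p.1 p.2.1 ∧ adj a p.2.1 p.2.2 ∧ adj a p.1 p.2.2)).card
      ≤ N * ∑ i ∈ Idx a N, (a i).divisors.card := by
  have hinj := ha.mono.injective
  set ix := Function.invFun a with hix
  have hix1 : ∀ j, ix (a j) = j := Function.leftInverse_invFun hinj
  have hcard : ((univ : Finset (Fin N)) ×ˢ (Idx a N).sigma (fun i => (a i).divisors)).card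
      = N * ∑ i ∈ Idx a N, (a i).divisors.card := by
    rw [card_product, card_sigma, card_univ, Fintype.card_fin]
  rw [← hcard]
  -- data of a sorted triangle
  have hdat : ∀ p ∈ (univ.filter (fun p : Fin N × Fin N × Fin N => p.1 < p.2.1 ∧ p.2.1 < p.2.2 ∧
      adj a p.1 p.2.1 ∧ adj a p.2.1 p.2.2 ∧ adj a p.1 p.2.2)), ∃ i j l, j < l ∧
      (p.1 : ℕ) + a i = p.2.1 ∧ (p.2.1 : ℕ) + a j = p.2.2 ∧ (p.1 : ℕ) + a l = p.2.2 ∧
      a l = a i + a j := by
    intro p hp
    obtain ⟨_, h1, h2, ⟨i, hi⟩, ⟨j, hj⟩, ⟨l, hl⟩⟩ := mem_filter.1 hp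
    rw [Fin.lt_def] at h1 h2
    have hi' : (p.1 : ℕ) + a i = p.2.1 := by
      rcases hi with h | h
      · exact h
      · have := ha.pos i
        omega
    have hj' : (p.2.1 : ℕ) + a j = p.2.2 := by
      rcases hj with h | h
      · exact h
      · have := ha.pos j
        omega
    have hl' : (p.1 : ℕ) + a l = p.2.2 := by
      rcases hl with h | h
      · exact h
      · have := ha.pos l
        omega
    refine ⟨i, j, l, ?_, hi', hj', hl', by omega⟩
    have hlt : a j < a l := by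
      have := ha.pos i
      omega
    exact ha.mono.lt_iff_lt.1 hlt
  refine card_le_card_of_injOn (fun p => (p.1, ⟨ix ((p.2.1 : ℕ) - p.1),
    ix ((p.2.2 : ℕ) - p.1) - ix ((p.2.2 : ℕ) - p.2.1)⟩)) ?_ ?_
  · intro p hp
    obtain ⟨i, j, l, hjl, h1, h2, h3, h4⟩ := hdat p hp
    have e1 : (p.2.1 : ℕ) - p.1 = a i := by omega
    have e2 : (p.2.2 : ℕ) - p.2.1 = a j := by omega
    have e3 : (p.2.2 : ℕ) - p.1 = a l := by omega
    have hN := p.2.1.2
    simp only [coe_product, coe_univ, Set.mem_prod, Set.mem_univ, true_and, mem_coe, mem_sigma,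
      e1, e2, e3, hix1]
    refine ⟨(mem_Idx ha).2 (by omega), ?_⟩
    rw [Nat.mem_divisors]
    refine ⟨?_, (ha.pos i).ne'⟩
    have := ha.dvd j (l - j)
    rw [Nat.add_sub_cancel' hjl.le] at this
    have h5 : a l - a j = a i := by omega
    rwa [h5] at this
  · intro p hp q hq hpq
    obtain ⟨i, j, l, hjl, h1, h2, h3, h4⟩ := hdat p hp
    obtain ⟨i', j', l', hjl', h1', h2', h3', h4'⟩ := hdat q hq
    have e1 : (p.2.1 : ℕ) - p.1 = a i := by omega
    have e2 : (p.2.2 : ℕ) - p.2.1 = a j := by omega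
    have e3 : (p.2.2 : ℕ) - p.1 = a l := by omega
    have e1' : (q.2.1 : ℕ) - q.1 = a i' := by omega
    have e2' : (q.2.2 : ℕ) - q.2.1 = a j' := by omega
    have e3' : (q.2.2 : ℕ) - q.1 = a l' := by omega
    simp only [e1, e2, e3, e1', e2', e3', hix1, Prod.mk.injEq, Sigma.mk.injEq, heq_eq_eq] at hpq
    obtain ⟨hx, hi, he⟩ := hpq
    subst hi
    have hjj : j = j' := by
      have hmono := ha.phi (l - j) (by omega)
      refine hmono.injective (?_ : (a (j + (l - j)) : ℤ) - a j = (a (j' + (l - j)) : ℤ) - a j')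
      rw [Nat.add_sub_cancel' hjl.le]
      rw [he, Nat.add_sub_cancel' hjl'.le, h4, h4']
      push_cast
      ring
    subst hjj
    have hx' : (p.1 : ℕ) = q.1 := congrArg Fin.val hx
    have hy' : (p.2.1 : ℕ) = q.2.1 := by omega
    have hz' : (p.2.2 : ℕ) = q.2.2 := by omega
    exact Prod.ext hx (Prod.ext (Fin.ext hy') (Fin.ext hz'))

open Classical in
theorem tris_le {a : ℕ → ℕ} (ha : Seq a) (N : ℕ) :
    (tris (fun x y : Fin N => adj a x y) univ).card
      ≤ 6 * (N * ∑ i ∈ Idx a N, (a i).divisors.card) := by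
  set T := (univ.filter (fun p : Fin N × Fin N × Fin N => p.1 < p.2.1 ∧ p.2.1 < p.2.2 ∧
      adj a p.1 p.2.1 ∧ adj a p.2.1 p.2.2 ∧ adj a p.1 p.2.2)) with hT
  have hTc : T.card ≤ N * ∑ i ∈ Idx a N, (a i).divisors.card := sorted_le ha N
  have hsub : tris (fun x y : Fin N => adj a x y) univ ⊆
      (T ∪ T.image (fun p => (p.1, p.2.2, p.2.1))) ∪
      ((T.image (fun p => (p.2.1, p.1, p.2.2)) ∪ T.image (fun p => (p.2.2, p.1, p.2.1))) ∪
      (T.image (fun p => (p.2.1, p.2.2, p.1)) ∪ T.image (fun p => (p.2.2, p.2.1, p.1)))) := by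
    rintro ⟨x, y, z⟩ hp
    simp only [tris, mem_filter, mem_product, mem_univ, true_and] at hp
    obtain ⟨hxy, hyz, hxz⟩ := hp
    have nxy : x ≠ y := fun h => adj_irrefl ha y (h ▸ hxy)
    have nyz : y ≠ z := fun h => adj_irrefl ha z (h ▸ hyz)
    have nxz : x ≠ z := fun h => adj_irrefl ha z (h ▸ hxz)
    have hyx := adj_symm a hxy
    have hzy := adj_symm a hyz
    have hzx := adj_symm a hxz
    have hm : ∀ u v w : Fin N, (u, v, w) ∈ T ↔ u < v ∧ v < w ∧ adj a u v ∧ adj a v w ∧ adj a u w := by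
      intro u v w
      simp [hT]
    simp only [mem_union, mem_image, Prod.exists, Prod.mk.injEq, hm]
    rcases lt_or_gt_of_ne nxy with h1 | h1 <;> rcases lt_or_gt_of_ne nyz with h2 | h2 <;>
      rcases lt_or_gt_of_ne nxz with h3 | h3
    · exact Or.inl (Or.inl ⟨h1, h2, hxy, hyz, hxz⟩)
    · exact absurd (h1.trans h2) (not_lt.2 h3.le)
    · exact Or.inl (Or.inr ⟨x, z, y, ⟨h3, h2, hxz, hzy, hxy⟩, rfl, rfl, rfl⟩)
    · exact Or.inr (Or.inr (Or.inl ⟨z, x, y, ⟨h3, h1, hzx, hxy, hzy⟩, rfl, rfl, rfl⟩))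
    · exact Or.inr (Or.inl (Or.inl ⟨y, x, z, ⟨h1, h3, hyx, hxz, hyz⟩, rfl, rfl, rfl⟩))
    · exact Or.inr (Or.inl (Or.inr ⟨y, z, x, ⟨h2, h3, hyz, hzx, hyx⟩, rfl, rfl, rfl⟩))
    · exact absurd (h2.trans h1) (not_lt.2 h3.le)
    · exact Or.inr (Or.inr (Or.inr ⟨z, y, x, ⟨h2, h1, hzy, hyx, hzx⟩, rfl, rfl, rfl⟩))
  have hi : ∀ f : Fin N × Fin N × Fin N → Fin N × Fin N × Fin N, (T.image f).card ≤ T.card :=
    fun f => card_image_le
  calc _ ≤ _ := card_le_card hsub
    _ ≤ (T.card + T.card) + ((T.card + T.card) + (T.card + T.card)) := by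
        refine (card_union_le _ _).trans (Nat.add_le_add ?_ ?_)
        · exact (card_union_le _ _).trans (Nat.add_le_add le_rfl (hi _))
        · refine (card_union_le _ _).trans (Nat.add_le_add ?_ ?_)
          · exact (card_union_le _ _).trans (Nat.add_le_add (hi _) (hi _))
          · exact (card_union_le _ _).trans (Nat.add_le_add (hi _) (hi _))
    _ = 6 * T.card := by ring
    _ ≤ _ := Nat.mul_le_mul_left _ hTc

end Vale.Agent.P042.LB.H22
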